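import Vale.Agent.P042.MathlibUsed

set_option autoImplicit false

/-!
P042, rows S.6b / D.6 (seam between the circle method and the product space), part 1:
finite algebra of the tilts (recombination) and Rankin's bound for the truncation.
-/

namespace Vale.Agent.P042.H452

open Finset

variable {ι : Type*} [Fintype ι] [DecidableEq ι]

/-- the sets of at most `m0` coordinates -/
def low (ι : Type*) [Fintype ι] [DecidableEq ι] (m0 : ℕ) : Finset (Finset ι) :=
  univ.filter fun B => B.card ≤ m0

theorem mem_low {m0 : ℕ} {B : Finset ι} : B ∈ low ι m0 ↔ B.card ≤ m0 := by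
  simp [low]

/-- the union of a triple -/
def un3 (t : Finset ι × Finset ι × Finset ι) : Finset ι := t.1 ∪ t.2.1 ∪ t.2.2

/-- the product over a triple -/
def pr3 (k e e' : ι → ℝ) (t : Finset ι × Finset ι × Finset ι) : ℝ :=
  (∏ i ∈ t.1, k i) * (∏ i ∈ t.2.1, e i) * ∏ i ∈ t.2.2, e' i

omit [Fintype ι] [DecidableEq ι] in
/-- triples inside `B'` -/
theorem sum_triples (k e e' : ι → ℝ) (B : Finset ι) :
    ∑ t ∈ B.powerset ×ˢ (B.powerset ×ˢ B.powerset), pr3 k e e' t =
      ∏ i ∈ B, ((1 + e i) * (1 + k i) * (1 + e' i)) := by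
  rw [prod_mul_distrib, prod_mul_distrib, prod_one_add, prod_one_add, prod_one_add, sum_product]
  simp only [sum_product, pr3]
  rw [mul_comm (∑ t ∈ B.powerset, ∏ i ∈ t, e i), sum_mul_sum, sum_mul]
  refine sum_congr rfl fun b _ => ?_
  rw [sum_mul]
  refine sum_congr rfl fun d _ => ?_
  rw [mul_sum]

/-- the triples with union `B` -/
theorem sum_union_eq (k e e' K : ι → ℝ) (hK : ∀ i, 1 + K i = (1 + e i) * (1 + k i) * (1 + e' i)) :
    ∀ B : Finset ι, ∑ t ∈ univ.filter (fun t : Finset ι × Finset ι × Finset ι => un3 t = B),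
      pr3 k e e' t = ∏ i ∈ B, K i := by
  intro B
  induction B using Finset.strongInduction with
  | H B ih =>
    have h1 : ∑ C ∈ B.powerset, ∑ t ∈ univ.filter
        (fun t : Finset ι × Finset ι × Finset ι => un3 t = C), pr3 k e e' t =
        ∑ C ∈ B.powerset, ∏ i ∈ C, K i := by
      have h2 : ∑ C ∈ B.powerset, ∑ t ∈ univ.filter
          (fun t : Finset ι × Finset ι × Finset ι => un3 t = C), pr3 k e e' t =
          ∑ t ∈ B.powerset ×ˢ (B.powerset ×ˢ B.powerset), pr3 k e e' t := by
        rw [← sum_fiberwise_of_maps_to (s := B.powerset ×ˢ (B.powerset ×ˢ B.powerset))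
          (t := B.powerset) (g := un3) (f := pr3 k e e')]
        · refine sum_congr rfl fun C hC => ?_
          refine sum_congr ?_ fun _ _ => rfl
          ext t
          simp only [mem_filter, mem_univ, true_and, mem_product, mem_powerset] at hC ⊢
          constructor
          · intro ht
            have ht' : t.1 ∪ t.2.1 ∪ t.2.2 = C := ht
            refine ⟨⟨?_, ?_, ?_⟩, ht⟩
            · exact (subset_union_left.trans subset_union_left).trans (ht' ▸ hC)
            · exact (subset_union_right.trans subset_union_left).trans (ht' ▸ hC)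
            · exact subset_union_right.trans (ht' ▸ hC)
          · exact fun ht => ht.2
        · intro t ht
          simp only [mem_product, mem_powerset, un3] at ht ⊢
          exact union_subset (union_subset ht.1 ht.2.1) ht.2.2
      rw [h2, sum_triples, ← prod_one_add]
      exact prod_congr rfl fun i _ => (hK i).symm
    have h3 : B ∈ B.powerset := mem_powerset_self B
    rw [← add_sum_erase _ _ h3, ← add_sum_erase _ _ h3] at h1
    have h4 : ∑ C ∈ B.powerset.erase B, ∑ t ∈ univ.filter
        (fun t : Finset ι × Finset ι × Finset ι => un3 t = C), pr3 k e e' t =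
        ∑ C ∈ B.powerset.erase B, ∏ i ∈ C, K i := by
      refine sum_congr rfl fun C hC => ih C ?_
      rw [mem_erase, mem_powerset] at hC
      exact (ssubset_iff_subset_ne).2 ⟨hC.2, hC.1⟩
    linarith

/-- **recombination**: the kernels `K` on small sets, in terms of triples -/
theorem recomb (m0 : ℕ) (k e e' K : ι → ℝ)
    (hK : ∀ i, 1 + K i = (1 + e i) * (1 + k i) * (1 + e' i)) :
    ∑ B ∈ low ι m0, ∏ i ∈ B, K i =
      ∑ t ∈ univ.filter (fun t : Finset ι × Finset ι × Finset ι => (un3 t).card ≤ m0),
        pr3 k e e' t := by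
  rw [← sum_fiberwise_of_maps_to (s := univ.filter
    (fun t : Finset ι × Finset ι × Finset ι => (un3 t).card ≤ m0)) (t := low ι m0) (g := un3)
    (f := pr3 k e e')]
  · refine sum_congr rfl fun B hB => ?_
    rw [← sum_union_eq k e e' K hK B]
    refine sum_congr ?_ fun _ _ => rfl
    ext t
    simp only [mem_filter, mem_univ, true_and]
    rw [mem_low] at hB
    constructor
    · intro h
      exact ⟨by rw [h]; exact hB, h⟩
    · exact fun h => h.2
  · intro t ht
    rw [mem_filter] at ht
    exact mem_low.2 ht.2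

/-- Rankin's bound -/
theorem rankin3 (m0 : ℕ) (a b c : ι → ℝ) (ha : ∀ i, 0 ≤ a i) (hb : ∀ i, 0 ≤ b i)
    (hc : ∀ i, 0 ≤ c i) (R : ℝ) (hR : 1 ≤ R) :
    ∑ t ∈ univ.filter (fun t : Finset ι × Finset ι × Finset ι => ¬ (un3 t).card ≤ m0),
      pr3 a b c t ≤ R⁻¹ ^ m0 * Real.exp (R * ∑ i, (a i + b i + c i)) := by
  have hR0 : 0 < R := by linarith
  have h1 : ∀ t : Finset ι × Finset ι × Finset ι, 0 ≤ pr3 (fun i => R * a i) (fun i => R * b i)
      (fun i => R * c i) t := fun t => by
    unfold pr3
    have := prod_nonneg fun i (_ : i ∈ t.1) => mul_nonneg hR0.le (ha i)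
    have := prod_nonneg fun i (_ : i ∈ t.2.1) => mul_nonneg hR0.le (hb i)
    have := prod_nonneg fun i (_ : i ∈ t.2.2) => mul_nonneg hR0.le (hc i)
    positivity
  have h2 : ∀ t ∈ univ.filter (fun t : Finset ι × Finset ι × Finset ι => ¬ (un3 t).card ≤ m0),
      pr3 a b c t ≤ R⁻¹ ^ m0 * pr3 (fun i => R * a i) (fun i => R * b i) (fun i => R * c i) t := by
    intro t ht
    rw [mem_filter] at ht
    have h3 : m0 ≤ t.1.card + t.2.1.card + t.2.2.card := by
      have h4 : (un3 t).card ≤ t.1.card + t.2.1.card + t.2.2.card :=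
        (card_union_le _ _).trans (Nat.add_le_add_right (card_union_le _ _) _)
      omega
    have h5 : pr3 (fun i => R * a i) (fun i => R * b i) (fun i => R * c i) t =
        R ^ (t.1.card + t.2.1.card + t.2.2.card) * pr3 a b c t := by
      unfold pr3
      simp only [prod_mul_distrib, prod_const]
      ring
    have h6 : 0 ≤ pr3 a b c t := by
      unfold pr3
      have := prod_nonneg fun i (_ : i ∈ t.1) => ha i
      have := prod_nonneg fun i (_ : i ∈ t.2.1) => hb i
      have := prod_nonneg fun i (_ : i ∈ t.2.2) => hc i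
      positivity
    rw [h5, ← mul_assoc]
    have h7 : 1 ≤ R⁻¹ ^ m0 * R ^ (t.1.card + t.2.1.card + t.2.2.card) := by
      rw [inv_pow, ← div_eq_inv_mul, le_div_iff₀ (by positivity), one_mul]
      exact pow_le_pow_right₀ hR h3
    calc pr3 a b c t = 1 * pr3 a b c t := (one_mul _).symm
      _ ≤ _ := mul_le_mul_of_nonneg_right h7 h6
  refine (sum_le_sum h2).trans ?_
  rw [← mul_sum]
  refine mul_le_mul_of_nonneg_left ?_ (by positivity)
  refine (sum_le_sum_of_subset_of_nonneg (filter_subset _ _) fun t _ _ => h1 t).trans ?_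
  have h8 := sum_triples (fun i => R * a i) (fun i => R * b i) (fun i => R * c i) (univ : Finset ι)
  rw [powerset_univ, univ_product_univ, univ_product_univ] at h8
  rw [h8, mul_sum, Real.exp_sum]
  refine prod_le_prod (fun i _ => ?_) fun i _ => ?_
  · have := ha i
    have := hb i
    have := hc i
    positivity
  · have e1 : 1 + R * b i ≤ Real.exp (R * b i) := by linarith [Real.add_one_le_exp (R * b i)]
    have e2 : 1 + R * a i ≤ Real.exp (R * a i) := by linarith [Real.add_one_le_exp (R * a i)]
    have e3 : 1 + R * c i ≤ Real.exp (R * c i) := by linarith [Real.add_one_le_exp (R * c i)]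
    have e4 : Real.exp (R * (a i + b i + c i)) =
        Real.exp (R * b i) * Real.exp (R * a i) * Real.exp (R * c i) := by
      rw [← Real.exp_add, ← Real.exp_add]
      congr 1
      ring
    rw [e4]
    have := mul_nonneg hR0.le (ha i)
    have := mul_nonneg hR0.le (hb i)
    have := mul_nonneg hR0.le (hc i)
    refine mul_le_mul (mul_le_mul e1 e2 (by positivity) (by positivity)) e3 (by positivity)
      (by positivity)

/-- all triples -/
theorem sum_all3 (a b c : ι → ℝ) (ha : ∀ i, 0 ≤ a i) (hb : ∀ i, 0 ≤ b i)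
    (hc : ∀ i, 0 ≤ c i) (s : Finset (Finset ι × Finset ι × Finset ι)) :
    ∑ t ∈ s, pr3 a b c t ≤ Real.exp (∑ i, (a i + b i + c i)) := by
  have h1 : ∀ t : Finset ι × Finset ι × Finset ι, 0 ≤ pr3 a b c t := fun t => by
    unfold pr3
    have := prod_nonneg fun i (_ : i ∈ t.1) => ha i
    have := prod_nonneg fun i (_ : i ∈ t.2.1) => hb i
    have := prod_nonneg fun i (_ : i ∈ t.2.2) => hc i
    positivity
  refine (sum_le_sum_of_subset_of_nonneg (subset_univ s) fun t _ _ => h1 t).trans ?_
  have h8 := sum_triples a b c (univ : Finset ι)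
  rw [powerset_univ, univ_product_univ, univ_product_univ] at h8
  rw [h8, Real.exp_sum]
  refine prod_le_prod (fun i _ => ?_) fun i _ => ?_
  · have := ha i
    have := hb i
    have := hc i
    positivity
  · have e1 : 1 + b i ≤ Real.exp (b i) := by linarith [Real.add_one_le_exp (b i)]
    have e2 : 1 + a i ≤ Real.exp (a i) := by linarith [Real.add_one_le_exp (a i)]
    have e3 : 1 + c i ≤ Real.exp (c i) := by linarith [Real.add_one_le_exp (c i)]
    have e4 : Real.exp (a i + b i + c i) =
        Real.exp (b i) * Real.exp (a i) * Real.exp (c i) := by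
      rw [← Real.exp_add, ← Real.exp_add]
      congr 1
      ring
    rw [e4]
    have := ha i
    have := hb i
    have := hc i
    refine mul_le_mul (mul_le_mul e1 e2 (by positivity) (by positivity)) e3 (by positivity)
      (by positivity)

end Vale.Agent.P042.H452
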