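import Vale.Agent.P042.H74.Ram4
import Vale.Agent.P042.H74.SeamD
import Vale.Agent.P042.H944.PhiL2
import Vale.Agent.P042.H452.Seam2

set_option autoImplicit false

/-!
P042, rows S.6b / D.6, part 3: the terms of the expansion and their `l^1` bound.
-/

namespace Vale.Agent.P042.H452

open Polynomial Finset Vale.Agent.P042.SS Vale.Agent.P042.H74

variable {ι : Type*} [Fintype ι] [DecidableEq ι]

/-- truncated tilt -/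
def Phi (e : ι → ℤ → ℝ) (m0 : ℕ) (n : ℤ) : ℝ := ∑ D ∈ low ι m0, ∏ i ∈ D, e i n

/-- the second parts of the moduli -/
def Mset (T : Finset ℕ) (prm : ι → ℕ) (M D0 : ℕ) : Finset ℕ :=
  (Icc 1 M).filter (fun m2 => D0 * m2 ≤ M ∧ (∀ p ∈ T, ¬ p ∣ m2) ∧ ∀ i, ¬ prm i ∣ m2)

/-- the second parts up to `M0` -/
def MM (T : Finset ℕ) (prm : ι → ℕ) (M0 : ℕ) : Finset ℕ :=
  (Icc 1 M0).filter (fun m2 => (∀ p ∈ T, ¬ p ∣ m2) ∧ ∀ i, ¬ prm i ∣ m2)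

/-- one term of the expansion -/
noncomputable def Tt (g : ℤ[X]) (PP : Finset ℕ) (S1 S2 : Finset ℤ) (w w' : ℤ → ℝ)
    (e e' : ι → ℤ → ℝ) (prm : ι → ℕ) (t : Finset ι × Finset ι × Finset ι) (m2 : ℕ) : ℂ :=
  PS g PP S1 S2 (fun n => w n * ∏ i ∈ t.2.1, e i n) (fun n => w' n * ∏ i ∈ t.2.2, e' i n)
    ((∏ i ∈ t.1, prm i) * m2)

omit [Fintype ι] [DecidableEq ι] in
theorem kapProd_prime (kw : ℕ → ℕ → ℝ) {p : ℕ} (hp : p.Prime) : kapProd kw p = kw p 1 := by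
  unfold kapProd
  rw [hp.primeFactors, prod_singleton, hp.factorization_self]

theorem kapProd_index (kw : ℕ → ℕ → ℝ) (prm : ι → ℕ) (hp : ∀ i, (prm i).Prime)
    (hinj : Function.Injective prm) (B : Finset ι) (m2 : ℕ) (h : ∀ i ∈ B, ¬ prm i ∣ m2) :
    kapProd kw ((∏ i ∈ B, prm i) * m2) = (∏ i ∈ B, kw (prm i) 1) * kapProd kw m2 := by
  induction B using Finset.induction_on with
  | empty => simp
  | insert i B hi ih =>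
    rw [prod_insert hi, prod_insert hi, mul_assoc, kapProd_mul kw, ih fun j hj => h j
      (mem_insert_of_mem hj), kapProd_prime kw (hp i), mul_assoc]
    apply Nat.Coprime.mul_right
    · rw [(hp i).coprime_iff_not_dvd, prm_dvd_prod hp hinj]
      exact hi
    · exact ((hp i).coprime_iff_not_dvd).2 (h i (mem_insert_self i B))

omit [Fintype ι] [DecidableEq ι] in
theorem l2_term (prm : ι → ℕ) (hp : ∀ i, (prm i).Prime) (hinj : Function.Injective prm)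
    (e : ι → ℤ → ℝ) (hper : ∀ i n, e i (n + prm i) = e i n) (b : ι → ℝ) (hb : ∀ i, 0 ≤ b i)
    (he : ∀ i, ∑ x ∈ range (prm i), e i (x : ℤ) ^ 2 ≤ prm i * b i ^ 2) (D : Finset ι) (N' : ℕ)
    (hD : ∏ i ∈ D, prm i ≤ N') (S : Finset ℤ) (hS : S ⊆ Icc (1 : ℤ) N') (w : ℤ → ℝ) (A : ℝ)
    (hA : 0 ≤ A) (hw : ∀ n ∈ S, |w n| ≤ A) :
    Real.sqrt (∑ n ∈ S, (w n * ∏ i ∈ D, e i n) ^ 2) ≤
      A * Real.sqrt (2 * N') * ∏ i ∈ D, b i := by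
  have hB : 0 ≤ ∏ i ∈ D, b i := prod_nonneg fun i _ => hb i
  have h0 : Real.sqrt (A ^ 2 * (2 * N' * ∏ i ∈ D, b i ^ 2)) =
      A * Real.sqrt (2 * N') * ∏ i ∈ D, b i := by
    have e0 : (0 : ℝ) ≤ 2 * N' := by positivity
    rw [Real.sqrt_mul (sq_nonneg A), Real.sqrt_sq hA, Real.sqrt_mul e0, prod_pow,
      Real.sqrt_sq hB, mul_assoc]
  rw [← h0]
  apply Real.sqrt_le_sqrt
  have h1 : ∑ n ∈ S, (w n * ∏ i ∈ D, e i n) ^ 2 ≤ A ^ 2 * ∑ n ∈ S, (∏ i ∈ D, e i n) ^ 2 := by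
    rw [mul_sum]
    refine sum_le_sum fun n hn => ?_
    rw [mul_pow]
    refine mul_le_mul_of_nonneg_right ?_ (sq_nonneg _)
    rw [← sq_abs]
    exact pow_le_pow_left₀ (abs_nonneg _) (hw n hn) 2
  refine h1.trans (mul_le_mul_of_nonneg_left ?_ (sq_nonneg A))
  refine (sum_le_sum_of_subset_of_nonneg hS fun n _ _ => sq_nonneg _).trans ?_
  exact H944.l2_tilt prm hp hinj e hper b hb he D N' hD

/-- the hypotheses of the seam -/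
structure SeamH (g : ℤ[X]) (PP T : Finset ℕ) (prm : ι → ℕ) (kw : ℕ → ℕ → ℝ) (ρ b b' : ι → ℝ)
    (e e' : ι → ℤ → ℝ) (S1 S2 : Finset ℤ) (w w' : ℤ → ℝ) (A : ℝ) (N' Q m0 : ℕ) : Prop where
  hPP : NS g PP
  inj : Function.Injective prm
  mem : ∀ i, prm i ∈ PP
  kw0 : ∀ p j, 0 ≤ kw p j
  hG : ∀ (q : ℕ) (a : ℤ), 1 ≤ q → IsCoprime a (q : ℤ) → ‖GamN g PP a q‖ ≤ kapProd kw q
  hρ : ∀ i, kw (prm i) 1 ≤ ρ i
  b0 : ∀ i, 0 ≤ b i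
  b0' : ∀ i, 0 ≤ b' i
  per : ∀ i n, e i (n + prm i) = e i n
  per' : ∀ i n, e' i (n + prm i) = e' i n
  he : ∀ i, ∑ x ∈ range (prm i), e i (x : ℤ) ^ 2 ≤ prm i * b i ^ 2
  he' : ∀ i, ∑ x ∈ range (prm i), e' i (x : ℤ) ^ 2 ≤ prm i * b' i ^ 2
  hS1 : S1 ⊆ Icc (1 : ℤ) N'
  hS2 : S2 ⊆ Icc (1 : ℤ) N'
  A0 : 0 ≤ A
  hw : ∀ n ∈ S1, |w n| ≤ A
  hw' : ∀ n ∈ S2, |w' n| ≤ A
  Q1 : 1 ≤ Q
  QN : Q ^ 4 ≤ N'
  hm0 : ∀ B : Finset ι, B.card ≤ m0 → ∏ i ∈ B, prm i ≤ N'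

namespace SeamH

variable {g : ℤ[X]} {PP T : Finset ℕ} {prm : ι → ℕ} {kw : ℕ → ℕ → ℝ} {ρ b b' : ι → ℝ}
    {e e' : ι → ℤ → ℝ} {S1 S2 : Finset ℤ} {w w' : ℤ → ℝ} {A : ℝ} {N' Q m0 : ℕ}

omit [Fintype ι] [DecidableEq ι] in
theorem prime (H : SeamH g PP T prm kw ρ b b' e e' S1 S2 w w' A N' Q m0) (i : ι) :
    (prm i).Prime := (H.hPP _ (H.mem i)).1

omit [Fintype ι] [DecidableEq ι] in
theorem rho0 (H : SeamH g PP T prm kw ρ b b' e e' S1 S2 w w' A N' Q m0) (i : ι) : 0 ≤ ρ i :=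
  (H.kw0 _ _).trans (H.hρ i)

omit [Fintype ι] [DecidableEq ι] in
theorem pos (H : SeamH g PP T prm kw ρ b b' e e' S1 S2 w w' A N' Q m0) (B : Finset ι) :
    1 ≤ ∏ i ∈ B, prm i :=
  Nat.one_le_iff_ne_zero.2 (prod_ne_zero_iff.2 fun i _ => (H.prime i).ne_zero)

/-- the `l^1` bound of one triple -/
theorem term_bound (H : SeamH g PP T prm kw ρ b b' e e' S1 S2 w w' A N' Q m0)
    (t : Finset ι × Finset ι × Finset ι) (h1 : t.2.1.card ≤ m0) (h2 : t.2.2.card ≤ m0)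
    (M : ℕ) (hM : M ≤ Q) (𝓜 : Finset ℕ) (h𝓜 : 𝓜 ⊆ Mset T prm M (∏ i ∈ t.1, prm i)) (c : ℝ)
    (hc : ∀ m2 ∈ 𝓜, kapProd kw m2 ≤ c) (hc0 : 0 ≤ c) :
    ∑ m2 ∈ 𝓜, ‖Tt g PP S1 S2 w w' e e' prm t m2‖ ≤
      4 * (N' : ℝ) ^ 2 * A ^ 2 * (c * pr3 ρ b b' t) := by
  have hmem : ∀ m2 ∈ 𝓜, 1 ≤ m2 ∧ (∏ i ∈ t.1, prm i) * m2 ≤ M ∧ ∀ i, ¬ prm i ∣ m2 := by
    intro m2 hm2
    have := h𝓜 hm2
    unfold Mset at this
    rw [mem_filter, mem_Icc] at this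
    exact ⟨this.1.1, this.2.1, this.2.2.2⟩
  have hρB : 0 ≤ ∏ i ∈ t.1, ρ i := prod_nonneg fun i _ => H.rho0 i
  have hbB : 0 ≤ ∏ i ∈ t.2.1, b i := prod_nonneg fun i _ => H.b0 i
  have hbB' : 0 ≤ ∏ i ∈ t.2.2, b' i := prod_nonneg fun i _ => H.b0' i
  have key := ps_l1 g PP S1 S2 N' H.hS1 H.hS2 (fun n => w n * ∏ i ∈ t.2.1, e i n)
    (fun n => w' n * ∏ i ∈ t.2.2, e' i n) Q H.Q1 (∏ i ∈ t.1, prm i) (H.pos t.1) 𝓜
    (fun m hm => (hmem m hm).1) (fun m hm => by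
      rw [mul_comm]
      exact (hmem m hm).2.1.trans hM) ((∏ i ∈ t.1, ρ i) * c) (by positivity) (by
      intro m hm a ha
      obtain ⟨g1, g2, g3⟩ := hmem m hm
      refine (H.hG (m * ∏ i ∈ t.1, prm i) a (Nat.mul_pos g1 (H.pos t.1)) ha).trans ?_
      rw [mul_comm m, kapProd_index kw prm H.prime H.inj t.1 m fun i _ => g3 i]
      refine mul_le_mul (prod_le_prod (fun i _ => H.kw0 _ _) fun i _ => H.hρ i) (hc m hm)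
        (prod_nonneg fun p _ => H.kw0 _ _) hρB)
  have e1 : ∑ m2 ∈ 𝓜, ‖Tt g PP S1 S2 w w' e e' prm t m2‖ =
      ∑ m ∈ 𝓜, ‖PS g PP S1 S2 (fun n => w n * ∏ i ∈ t.2.1, e i n)
        (fun n => w' n * ∏ i ∈ t.2.2, e' i n) (m * ∏ i ∈ t.1, prm i)‖ := by
    refine sum_congr rfl fun m _ => ?_
    unfold Tt
    rw [mul_comm]
  rw [e1]
  refine key.trans ?_
  have g1 := l2_term prm H.prime H.inj e H.per b H.b0 H.he t.2.1 N' (H.hm0 _ h1) S1 H.hS1 w A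
    H.A0 H.hw
  have g2 := l2_term prm H.prime H.inj e' H.per' b' H.b0' H.he' t.2.2 N' (H.hm0 _ h2) S2 H.hS2
    w' A H.A0 H.hw'
  have hN : (0 : ℝ) ≤ N' := Nat.cast_nonneg _
  have hA := H.A0
  have g3 : (N' : ℝ) + (Q : ℝ) ^ 4 ≤ 2 * N' := by
    have : ((Q ^ 4 : ℕ) : ℝ) ≤ N' := by exact_mod_cast H.QN
    push_cast at this
    linarith
  have g4 : Real.sqrt (∑ n ∈ S1, (w n * ∏ i ∈ t.2.1, e i n) ^ 2) *
      Real.sqrt (∑ n ∈ S2, (w' n * ∏ i ∈ t.2.2, e' i n) ^ 2) ≤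
      (A * Real.sqrt (2 * N') * ∏ i ∈ t.2.1, b i) *
        (A * Real.sqrt (2 * N') * ∏ i ∈ t.2.2, b' i) :=
    mul_le_mul g1 g2 (Real.sqrt_nonneg _) (by positivity)
  have g5 : (A * Real.sqrt (2 * N') * ∏ i ∈ t.2.1, b i) *
        (A * Real.sqrt (2 * N') * ∏ i ∈ t.2.2, b' i) =
      2 * N' * A ^ 2 * ((∏ i ∈ t.2.1, b i) * ∏ i ∈ t.2.2, b' i) := by
    have : Real.sqrt (2 * (N' : ℝ)) * Real.sqrt (2 * N') = 2 * N' :=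
      Real.mul_self_sqrt (by positivity)
    calc _ = (Real.sqrt (2 * (N' : ℝ)) * Real.sqrt (2 * N')) * A ^ 2 *
          ((∏ i ∈ t.2.1, b i) * ∏ i ∈ t.2.2, b' i) := by ring
      _ = _ := by rw [this]
  rw [g5] at g4
  refine (mul_le_mul_of_nonneg_left (mul_le_mul g3 g4 (by positivity) (by positivity))
    (by positivity)).trans (le_of_eq ?_)
  unfold pr3
  ring

end SeamH

end Vale.Agent.P042.H452
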