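import Vale.Agent.P042.H452.Seam3

set_option autoImplicit false

/-!
P042, rows S.6b / D.6, part 4: the seam theorem (tilt and truncation).
-/

namespace Vale.Agent.P042.H452

open Polynomial Finset Vale.Agent.P042.SS Vale.Agent.P042.H74

variable {ι : Type*} [Fintype ι] [DecidableEq ι]

/-- the pair sum with the recombined kernels `K` -/
noncomputable def FB (g : ℤ[X]) (PP : Finset ℕ) (S1 S2 : Finset ℤ) (w w' : ℤ → ℝ)
    (K : ι → ℤ → ℤ → ℝ) (B : Finset ι) (m2 : ℕ) : ℂ :=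
  ∑ n ∈ S1, ∑ m ∈ S2, ((w n * w' m * ∏ i ∈ B, K i n m : ℝ) : ℂ) * Ram g PP m2 (n - m)

/-- the cross form of the tilted weights -/
noncomputable def crossT (g : ℤ[X]) (PP : Finset ℕ) (S1 S2 : Finset ℤ) (w w' : ℤ → ℝ)
    (e e' : ι → ℤ → ℝ) (m0 Q : ℕ) : ℂ :=
  ∑ q ∈ Icc 1 Q, ∑ a ∈ (range q).filter (Nat.Coprime q), GamN g PP a q *
    (Sf S1 (fun n => w n * Phi e m0 n) ((a : ℝ) / q) *
      (starRingEnd ℂ) (Sf S2 (fun n => w' n * Phi e' m0 n) ((a : ℝ) / q)))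

/-- expansion of the cross form -/
theorem crossT_eq {f : ℤ[X]} {T : Finset ℕ} {V : ℕ → ℕ} {q1 : ℕ} {z0 : ℤ}
    (h : TinyD f T V q1 z0) {PP : Finset ℕ} (hPP : NS (fer f q1 z0) PP)
    (hdis : Disjoint T PP) (prm : ι → ℕ) (hinj : Function.Injective prm)
    (hprm : ∀ i, prm i ∈ PP) (S1 S2 : Finset ℤ)
    (ht : ∀ n ∈ S1, ∀ m ∈ S2, ((qnul f q1 z0 : ℕ) : ℤ) ∣ (n - m) - f.eval z0) (w w' : ℤ → ℝ)
    (e e' : ι → ℤ → ℝ) (m0 Q : ℕ) :
    crossT (fer f q1 z0) PP S1 S2 w w' e e' m0 Q =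
      ∑ d ∈ (qnul f q1 z0).divisors, (d.totient : ℂ) *
        ∑ t ∈ (univ : Finset (Finset ι)) ×ˢ (low ι m0 ×ˢ low ι m0),
          ∑ m2 ∈ Mset T prm (Q / d) (∏ i ∈ t.1, prm i),
            Tt (fer f q1 z0) PP S1 S2 w w' e e' prm t m2 := by
  set g := fer f q1 z0 with hg
  have h1 : crossT g PP S1 S2 w w' e e' m0 Q =
      ∑ n ∈ S1, ∑ m ∈ S2, (((w n * Phi e m0 n) * (w' m * Phi e' m0 m) : ℝ) : ℂ) *
        ∑ q ∈ Icc 1 Q, Ram g PP q (n - m) := by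
    have e1 : crossT g PP S1 S2 w w' e e' m0 Q = ∑ q ∈ Icc 1 Q, PS g PP S1 S2
        (fun n => w n * Phi e m0 n) (fun n => w' n * Phi e' m0 n) q := by
      unfold crossT
      exact sum_congr rfl fun q _ => (PS_eq _ _ _ _ _ _ _).symm
    rw [e1]
    unfold PS
    rw [sum_comm]
    refine sum_congr rfl fun n _ => ?_
    rw [sum_comm]
    refine sum_congr rfl fun m _ => ?_
    rw [mul_sum]
  rw [h1]
  -- the pointwise identity
  have h2 : ∀ n ∈ S1, ∀ m ∈ S2, (((w n * Phi e m0 n) * (w' m * Phi e' m0 m) : ℝ) : ℂ) *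
        ∑ q ∈ Icc 1 Q, Ram g PP q (n - m) =
      ∑ d ∈ (qnul f q1 z0).divisors, (d.totient : ℂ) *
        ∑ t ∈ (univ : Finset (Finset ι)) ×ˢ (low ι m0 ×ˢ low ι m0),
          ∑ m2 ∈ Mset T prm (Q / d) (∏ i ∈ t.1, prm i),
            (((w n * ∏ i ∈ t.2.1, e i n) * (w' m * ∏ i ∈ t.2.2, e' i m) : ℝ) : ℂ) *
              Ram g PP ((∏ i ∈ t.1, prm i) * m2) (n - m) := by
    intro n hn m hm
    rw [sum_Ram_full h hPP hdis prm hinj hprm Q (ht n hn m hm), mul_sum]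
    refine sum_congr rfl fun d _ => ?_
    rw [mul_left_comm]
    congr 1
    rw [sum_product, mul_sum]
    refine sum_congr rfl fun B _ => ?_
    have h3 : ((w n * Phi e m0 n) * (w' m * Phi e' m0 m) : ℝ) =
        ∑ x ∈ low ι m0 ×ˢ low ι m0, (w n * ∏ i ∈ x.1, e i n) * (w' m * ∏ i ∈ x.2, e' i m) := by
      unfold Phi
      rw [mul_sum, mul_sum, sum_mul_sum, sum_product]
    rw [h3]
    push_cast
    rw [sum_mul]
    refine sum_congr rfl fun x _ => ?_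
    rw [mul_sum]
    refine sum_congr rfl fun m2 hm2 => ?_
    unfold Mset at hm2
    have hm2' := hm2
    rw [mem_filter, mem_Icc] at hm2'
    rw [Ram_index g PP hPP prm hinj hprm B m2 hm2'.1.1 fun i _ => hm2'.2.2.2 i]
    push_cast
    ring
  rw [sum_congr rfl fun n hn => sum_congr rfl fun m hm => h2 n hn m hm]
  -- exchange of the sums
  rw [sum_congr rfl fun n _ => sum_comm, sum_comm]
  refine sum_congr rfl fun d _ => ?_
  rw [sum_congr rfl fun n _ => (mul_sum _ _ _).symm, ← mul_sum]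
  congr 1
  rw [sum_congr rfl fun n _ => sum_comm, sum_comm]
  refine sum_congr rfl fun t _ => ?_
  rw [sum_congr rfl fun n _ => sum_comm, sum_comm]
  rfl

/-- the recombined main part in terms of triples -/
theorem main_eq (g : ℤ[X]) (PP T : Finset ℕ) (hPP : NS g PP) (prm : ι → ℕ)
    (hinj : Function.Injective prm) (hprm : ∀ i, prm i ∈ PP) (S1 S2 : Finset ℤ) (w w' : ℤ → ℝ)
    (e e' : ι → ℤ → ℝ) (K : ι → ℤ → ℤ → ℝ)
    (hK : ∀ i, ∀ n ∈ S1, ∀ m ∈ S2,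
      1 + K i n m = (1 + e i n) * (1 + kN g (prm i) (n - m)) * (1 + e' i m)) (m0 M0 : ℕ) :
    ∑ B ∈ low ι m0, ∑ m2 ∈ MM T prm M0, FB g PP S1 S2 w w' K B m2 =
      ∑ t ∈ univ.filter (fun t : Finset ι × Finset ι × Finset ι => (un3 t).card ≤ m0),
        ∑ m2 ∈ MM T prm M0, Tt g PP S1 S2 w w' e e' prm t m2 := by
  rw [sum_comm, sum_comm (s := univ.filter
    (fun t : Finset ι × Finset ι × Finset ι => (un3 t).card ≤ m0))]
  refine sum_congr rfl fun m2 hm2 => ?_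
  unfold MM at hm2
  rw [mem_filter, mem_Icc] at hm2
  unfold FB Tt PS
  rw [sum_comm, sum_comm (s := univ.filter
    (fun t : Finset ι × Finset ι × Finset ι => (un3 t).card ≤ m0))]
  refine sum_congr rfl fun n hn => ?_
  rw [sum_comm, sum_comm (s := univ.filter
    (fun t : Finset ι × Finset ι × Finset ι => (un3 t).card ≤ m0))]
  refine sum_congr rfl fun m hm => ?_
  have h1 := recomb m0 (fun i => kN g (prm i) (n - m)) (fun i => e i n) (fun i => e' i m)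
    (fun i => K i n m) fun i => hK i n hn m hm
  have h2 : ∑ B ∈ low ι m0, ((w n * w' m * ∏ i ∈ B, K i n m : ℝ) : ℂ) * Ram g PP m2 (n - m) =
      ((w n * w' m * ∑ B ∈ low ι m0, ∏ i ∈ B, K i n m : ℝ) : ℂ) * Ram g PP m2 (n - m) := by
    rw [mul_sum]
    push_cast
    rw [sum_mul]
  rw [h2, h1, mul_sum]
  push_cast
  rw [sum_mul]
  refine sum_congr rfl fun t _ => ?_
  rw [Ram_index g PP hPP prm hinj hprm t.1 m2 hm2.1.1 fun i _ => hm2.2.2 i]
  unfold pr3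
  push_cast
  ring

omit [Fintype ι] [DecidableEq ι] in
theorem pr3_nonneg {a b c : ι → ℝ} (ha : ∀ i, 0 ≤ a i) (hb : ∀ i, 0 ≤ b i)
    (hc : ∀ i, 0 ≤ c i) (t : Finset ι × Finset ι × Finset ι) : 0 ≤ pr3 a b c t := by
  unfold pr3
  have := prod_nonneg fun i (_ : i ∈ t.1) => ha i
  have := prod_nonneg fun i (_ : i ∈ t.2.1) => hb i
  have := prod_nonneg fun i (_ : i ∈ t.2.2) => hc i
  positivity

/-- **THE SEAM** (#10156): tilt and truncation -/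
theorem seam {f : ℤ[X]} {T : Finset ℕ} {V : ℕ → ℕ} {q1 : ℕ} {z0 : ℤ}
    (h : TinyD f T V q1 z0) {PP : Finset ℕ} {prm : ι → ℕ} {kw : ℕ → ℕ → ℝ} {ρ b b' : ι → ℝ}
    {e e' : ι → ℤ → ℝ} {S1 S2 : Finset ℤ} {w w' : ℤ → ℝ} {A : ℝ} {N' Q m0 : ℕ}
    (H : SeamH (fer f q1 z0) PP T prm kw ρ b b' e e' S1 S2 w w' A N' Q m0)
    (hdis : Disjoint T PP)
    (ht : ∀ n ∈ S1, ∀ m ∈ S2, ((qnul f q1 z0 : ℕ) : ℤ) ∣ (n - m) - f.eval z0)
    (K : ι → ℤ → ℤ → ℝ)
    (hK : ∀ i, ∀ n ∈ S1, ∀ m ∈ S2,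
      1 + K i n m = (1 + e i n) * (1 + kN (fer f q1 z0) (prm i) (n - m)) * (1 + e' i m))
    (M0 Y0 : ℕ) (hY : ∀ B : Finset ι, B.card ≤ m0 → ∏ i ∈ B, prm i ≤ Y0)
    (hQ : Y0 * M0 * qnul f q1 z0 ≤ Q) (R δ : ℝ) (hR : 1 ≤ R) (hδ0 : 0 ≤ δ)
    (hkw1 : ∀ m2 : ℕ, 1 ≤ m2 → m2 ≤ Q → (∀ p ∈ T, ¬ p ∣ m2) → (∀ i, ¬ prm i ∣ m2) →
      kapProd kw m2 ≤ 1)
    (hkwδ : ∀ m2 : ℕ, 1 ≤ m2 → m2 ≤ Q → (∀ p ∈ T, ¬ p ∣ m2) → (∀ i, ¬ prm i ∣ m2) →
      M0 < m2 → kapProd kw m2 ≤ δ) :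
    ‖crossT (fer f q1 z0) PP S1 S2 w w' e e' m0 Q -
      (qnul f q1 z0 : ℂ) * ∑ B ∈ low ι m0, ∑ m2 ∈ MM T prm M0,
        FB (fer f q1 z0) PP S1 S2 w w' K B m2‖ ≤
      (qnul f q1 z0 : ℝ) * (4 * (N' : ℝ) ^ 2 * A ^ 2 *
        (R⁻¹ ^ m0 * Real.exp (R * ∑ i, (ρ i + b i + b' i)) +
          δ * Real.exp (∑ i, (ρ i + b i + b' i)))) := by
  classical
  set g := fer f q1 z0 with hg
  obtain ⟨qn, hqn⟩ : ∃ x : ℕ, x = qnul f q1 z0 := ⟨_, rfl⟩
  have hqn1 : 1 ≤ qn := hqn ▸ qnul_pos z0 h.q1_pos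
  rw [crossT_eq h H.hPP hdis prm H.inj H.mem S1 S2 ht w w' e e' m0 Q,
    main_eq g PP T H.hPP prm H.inj H.mem S1 S2 w w' e e' K hK m0 M0]
  rw [← hqn] at hQ ⊢
  set Main := ∑ t ∈ univ.filter (fun t : Finset ι × Finset ι × Finset ι => (un3 t).card ≤ m0),
        ∑ m2 ∈ MM T prm M0, Tt g PP S1 S2 w w' e e' prm t m2 with hMain
  obtain ⟨Bd, hBd⟩ : ∃ x : ℝ, x = 4 * (N' : ℝ) ^ 2 * A ^ 2 *
        (R⁻¹ ^ m0 * Real.exp (R * ∑ i, (ρ i + b i + b' i)) +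
          δ * Real.exp (∑ i, (ρ i + b i + b' i))) := ⟨_, rfl⟩
  rw [← hBd]
  -- one divisor
  have hone : ∀ d ∈ qn.divisors, ‖(∑ t ∈ (univ : Finset (Finset ι)) ×ˢ (low ι m0 ×ˢ low ι m0),
      ∑ m2 ∈ Mset T prm (Q / d) (∏ i ∈ t.1, prm i),
        Tt g PP S1 S2 w w' e e' prm t m2) - Main‖ ≤ Bd := by
    intro d hd
    rw [Nat.mem_divisors] at hd
    have hd1 : 1 ≤ d := Nat.pos_of_dvd_of_pos hd.1 (by omega)
    have hdq : d ≤ qn := Nat.le_of_dvd (by omega) hd.1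
    have hMQ : Q / d ≤ Q := Nat.div_le_self _ _
    have hYM : Y0 * M0 ≤ Q / d := by
      rw [Nat.le_div_iff_mul_le hd1]
      exact (Nat.mul_le_mul_left _ hdq).trans hQ
    -- small triples
    have hsub : ∀ t : Finset ι × Finset ι × Finset ι, (un3 t).card ≤ m0 →
        t.1.card ≤ m0 ∧ t.2.1.card ≤ m0 ∧ t.2.2.card ≤ m0 := by
      intro t ht
      refine ⟨(card_le_card ?_).trans ht, (card_le_card ?_).trans ht,
        (card_le_card ?_).trans ht⟩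
      · exact subset_union_left.trans subset_union_left
      · exact subset_union_right.trans subset_union_left
      · exact subset_union_right
    have hfil : ((univ : Finset (Finset ι)) ×ˢ (low ι m0 ×ˢ low ι m0)).filter
        (fun t => (un3 t).card ≤ m0) =
        univ.filter (fun t : Finset ι × Finset ι × Finset ι => (un3 t).card ≤ m0) := by
      ext t
      simp only [mem_filter, mem_product, mem_univ, true_and, mem_low]
      exact ⟨fun ht => ht.2, fun ht => ⟨(hsub t ht).2, ht⟩⟩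
    have hMM : ∀ t : Finset ι × Finset ι × Finset ι, (un3 t).card ≤ m0 →
        (Mset T prm (Q / d) (∏ i ∈ t.1, prm i)).filter (fun m2 => m2 ≤ M0) = MM T prm M0 := by
      intro t ht
      ext m2
      unfold Mset MM
      simp only [mem_filter, mem_Icc]
      constructor
      · rintro ⟨⟨⟨a1, _⟩, _, a2, a3⟩, a4⟩
        exact ⟨⟨a1, a4⟩, a2, a3⟩
      · rintro ⟨⟨a1, a4⟩, a2, a3⟩
        have a5 : (∏ i ∈ t.1, prm i) * m2 ≤ Q / d :=
          (Nat.mul_le_mul (hY t.1 (hsub t ht).1) a4).trans hYM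
        have a6 : m2 ≤ (∏ i ∈ t.1, prm i) * m2 := Nat.le_mul_of_pos_left _ (H.pos t.1)
        exact ⟨⟨⟨a1, a6.trans a5⟩, a5, a2, a3⟩, a4⟩
    rw [← sum_filter_add_sum_filter_not ((univ : Finset (Finset ι)) ×ˢ
      (low ι m0 ×ˢ low ι m0)) (fun t => (un3 t).card ≤ m0), hfil]
    have hsp : ∑ t ∈ univ.filter (fun t : Finset ι × Finset ι × Finset ι => (un3 t).card ≤ m0),
        ∑ m2 ∈ Mset T prm (Q / d) (∏ i ∈ t.1, prm i), Tt g PP S1 S2 w w' e e' prm t m2 =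
        Main + ∑ t ∈ univ.filter
          (fun t : Finset ι × Finset ι × Finset ι => (un3 t).card ≤ m0),
          ∑ m2 ∈ (Mset T prm (Q / d) (∏ i ∈ t.1, prm i)).filter (fun m2 => ¬ m2 ≤ M0),
            Tt g PP S1 S2 w w' e e' prm t m2 := by
      rw [hMain, ← sum_add_distrib]
      refine sum_congr rfl fun t ht => ?_
      rw [mem_filter] at ht
      rw [← sum_filter_add_sum_filter_not (Mset T prm (Q / d) (∏ i ∈ t.1, prm i))
        (fun m2 => m2 ≤ M0), hMM t ht.2]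
    rw [hsp, add_assoc, add_sub_cancel_left]
    have c0 : (0 : ℝ) ≤ 4 * (N' : ℝ) ^ 2 * A ^ 2 := by positivity
    have hmemM : ∀ (D0 m2 : ℕ), m2 ∈ Mset T prm (Q / d) D0 →
        1 ≤ m2 ∧ m2 ≤ Q ∧ (∀ p ∈ T, ¬ p ∣ m2) ∧ ∀ i, ¬ prm i ∣ m2 := by
      intro D0 m2 hm2
      unfold Mset at hm2
      rw [mem_filter, mem_Icc] at hm2
      exact ⟨hm2.1.1, hm2.1.2.trans hMQ, hm2.2.2.1, hm2.2.2.2⟩
    have hE1 : ‖∑ t ∈ univ.filter
          (fun t : Finset ι × Finset ι × Finset ι => (un3 t).card ≤ m0),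
          ∑ m2 ∈ (Mset T prm (Q / d) (∏ i ∈ t.1, prm i)).filter (fun m2 => ¬ m2 ≤ M0),
            Tt g PP S1 S2 w w' e e' prm t m2‖ ≤
        4 * (N' : ℝ) ^ 2 * A ^ 2 * (δ * Real.exp (∑ i, (ρ i + b i + b' i))) := by
      refine (norm_sum_le _ _).trans ?_
      have e1 : ∀ t ∈ univ.filter
          (fun t : Finset ι × Finset ι × Finset ι => (un3 t).card ≤ m0),
          ‖∑ m2 ∈ (Mset T prm (Q / d) (∏ i ∈ t.1, prm i)).filter (fun m2 => ¬ m2 ≤ M0),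
            Tt g PP S1 S2 w w' e e' prm t m2‖ ≤
          4 * (N' : ℝ) ^ 2 * A ^ 2 * (δ * pr3 ρ b b' t) := by
        intro t ht
        rw [mem_filter] at ht
        refine (norm_sum_le _ _).trans ?_
        refine H.term_bound t (hsub t ht.2).2.1 (hsub t ht.2).2.2 (Q / d) hMQ _
          (filter_subset _ _) δ ?_ hδ0
        intro m2 hm2
        rw [mem_filter] at hm2
        obtain ⟨a1, a2, a3, a4⟩ := hmemM _ _ hm2.1
        exact hkwδ m2 a1 a2 a3 a4 (not_le.1 hm2.2)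
      refine (sum_le_sum e1).trans ?_
      rw [← mul_sum, ← mul_sum]
      refine mul_le_mul_of_nonneg_left (mul_le_mul_of_nonneg_left ?_ hδ0) c0
      exact sum_all3 ρ b b' H.rho0 H.b0 H.b0' _
    have hE2 : ‖∑ t ∈ ((univ : Finset (Finset ι)) ×ˢ (low ι m0 ×ˢ low ι m0)).filter
          (fun t => ¬ (un3 t).card ≤ m0),
          ∑ m2 ∈ Mset T prm (Q / d) (∏ i ∈ t.1, prm i),
            Tt g PP S1 S2 w w' e e' prm t m2‖ ≤
        4 * (N' : ℝ) ^ 2 * A ^ 2 * (R⁻¹ ^ m0 * Real.exp (R * ∑ i, (ρ i + b i + b' i))) := by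
      refine (norm_sum_le _ _).trans ?_
      have e1 : ∀ t ∈ ((univ : Finset (Finset ι)) ×ˢ (low ι m0 ×ˢ low ι m0)).filter
          (fun t => ¬ (un3 t).card ≤ m0),
          ‖∑ m2 ∈ Mset T prm (Q / d) (∏ i ∈ t.1, prm i),
            Tt g PP S1 S2 w w' e e' prm t m2‖ ≤
          4 * (N' : ℝ) ^ 2 * A ^ 2 * pr3 ρ b b' t := by
        intro t ht
        rw [mem_filter, mem_product, mem_product, mem_low, mem_low] at ht
        refine (norm_sum_le _ _).trans ?_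
        have := H.term_bound t ht.1.2.1 ht.1.2.2 (Q / d) hMQ _ (Subset.refl _) 1 (fun m2 hm2 => by
          obtain ⟨a1, a2, a3, a4⟩ := hmemM _ _ hm2
          exact hkw1 m2 a1 a2 a3 a4) zero_le_one
        rwa [one_mul] at this
      refine (sum_le_sum e1).trans ?_
      rw [← mul_sum]
      refine mul_le_mul_of_nonneg_left ?_ c0
      refine le_trans ?_ (rankin3 m0 ρ b b' H.rho0 H.b0 H.b0' R hR)
      refine sum_le_sum_of_subset_of_nonneg ?_ fun t _ _ => pr3_nonneg H.rho0 H.b0 H.b0' t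
      intro t ht
      rw [mem_filter] at ht ⊢
      exact ⟨mem_univ _, ht.2⟩
    refine (norm_add_le _ _).trans ?_
    rw [hBd, mul_add]
    linarith
  have hφ : (qn : ℂ) * Main = ∑ d ∈ qn.divisors, (d.totient : ℂ) * Main := by
    rw [← sum_mul]
    congr 1
    rw [← Nat.cast_sum, Nat.sum_totient]
  rw [hφ, ← sum_sub_distrib]
  refine (norm_sum_le _ _).trans ?_
  have e2 : ∀ d ∈ qn.divisors, ‖(d.totient : ℂ) *
      (∑ t ∈ (univ : Finset (Finset ι)) ×ˢ (low ι m0 ×ˢ low ι m0),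
        ∑ m2 ∈ Mset T prm (Q / d) (∏ i ∈ t.1, prm i),
          Tt g PP S1 S2 w w' e e' prm t m2) - (d.totient : ℂ) * Main‖ ≤
      (d.totient : ℝ) * Bd := by
    intro d hd
    rw [← mul_sub, norm_mul, Complex.norm_natCast]
    exact mul_le_mul_of_nonneg_left (hone d hd) (Nat.cast_nonneg _)
  refine (sum_le_sum e2).trans (le_of_eq ?_)
  rw [← sum_mul, ← Nat.cast_sum, Nat.sum_totient]

end Vale.Agent.P042.H452
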