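import Vale.Agent.P042.H452.PairK
import Vale.Agent.P042.H438.DC
import Vale.Agent.P042.H92.PDef

set_option autoImplicit false

/-!
P042, power regime: the pair of laws and kernels (`H92.PPair`) from the two laws and the kernels of
the state, in the vocabulary of the residue maps `H438.Rs q r`; typed sites, and one super-modulus.
-/

namespace Vale.Agent.P042.H452

open Polynomial Finset Vale.Agent.P042.SS Vale.Agent.P042.H74
open Vale.Agent.P042.H599 (cm Law klu)
open Vale.Agent.P042.H386 (OutW kLu refW PrSt GP)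
open Vale.Agent.P042.H438 (Rs uw)
open Vale.Agent.P042.H92 (Prm PLaw PPair)

section rep

variable {ι : Type*} {V : ι → Type*} [∀ i, Fintype (V i)] {q : ι → ℕ} {r : ∀ i, ℕ → V i}

theorem rsR_bij (H : Rs q r) (i : ι) : Function.Bijective (fun j : Fin (q i) => r i j) := by
  rw [Fintype.bijective_iff_injective_and_card]
  refine ⟨?_, by rw [Fintype.card_fin, H.card]⟩
  intro j k h
  have h1 := (H.r_iff i _ _).1 h
  unfold Nat.ModEq at h1
  rw [Nat.mod_eq_of_lt j.2, Nat.mod_eq_of_lt k.2] at h1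
  exact Fin.ext h1

/-- the representative of a class -/
noncomputable def vR (H : Rs q r) (i : ι) : V i → ℕ :=
  fun x => (((Equiv.ofBijective _ (rsR_bij H i)).symm x : Fin (q i)) : ℕ)

theorem vR_lt (H : Rs q r) (i : ι) (x : V i) : vR H i x < q i := Fin.is_lt _

theorem r_vR (H : Rs q r) (i : ι) (x : V i) : r i (vR H i x) = x :=
  (Equiv.ofBijective _ (rsR_bij H i)).apply_symm_apply x

theorem vR_r (H : Rs q r) (i : ι) (n : ℕ) : vR H i (r i n) = n % q i := by
  have h1 := r_vR H i (r i n)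
  rw [H.r_iff] at h1
  unfold Nat.ModEq at h1
  rwa [Nat.mod_eq_of_lt (vR_lt H i _)] at h1

theorem rs_vR (H : Rs q r) (i : ι) : H954.Rs (V i) (q i) (vR H i) where
  inj := fun x y h => by rw [← r_vR H i x, ← r_vR H i y, h]
  sum := fun g => by
    rw [Finset.sum_range]
    exact Fintype.sum_equiv (Equiv.ofBijective _ (rsR_bij H i)).symm _ _ fun x => rfl

/-- the residue map on the integers -/
def redR (r : ∀ i, ℕ → V i) (q : ι → ℕ) (n : ℤ) (i : ι) : V i := r i (n % (q i : ℤ)).toNat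

theorem redR_dvd (H : Rs q r) (n : ℤ) (i : ι) :
    ((q i : ℕ) : ℤ) ∣ n - vR H i (redR r q n i) := by
  have hq : (0 : ℤ) < q i := by
    have := H.two i
    omega
  unfold redR
  rw [vR_r H i]
  have h0 := Int.emod_nonneg n hq.ne'
  have h1 := Int.emod_lt_of_pos n hq
  have h2 : ((((n % (q i : ℤ)).toNat % q i : ℕ) : ℕ) : ℤ) = n % q i := by
    rw [Nat.mod_eq_of_lt (by omega), Int.toNat_of_nonneg h0]
  rw [h2]
  exact Int.dvd_self_sub_emod

/-- on the natural numbers it is the given residue map -/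
theorem redR_nat (H : Rs q r) (n : ℕ) (i : ι) : redR r q (n : ℤ) i = r i n := by
  unfold redR
  rw [H.r_iff]
  have h1 : ((n : ℤ) % (q i : ℤ)).toNat = n % q i := by
    rw [← Int.natCast_mod, Int.toNat_natCast]
  rw [h1]
  exact Nat.mod_modEq n (q i)

end rep

section pair

variable {ι : Type} [Fintype ι] [DecidableEq ι] {V : ι → Type} [∀ i, Fintype (V i)]
  [∀ i, DecidableEq (V i)] {q : ι → ℕ} {r : ∀ i, ℕ → V i}

/-- the reference of the kernels -/
noncomputable def lam2R (lo : ι → Prop) [DecidablePred lo] (lam : ∀ i, V i → ℝ) (q : ι → ℕ)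
    (i : ι) : V i → ℝ := if lo i then lam i else uw q i

omit [Fintype ι] [DecidableEq ι] [∀ i, DecidableEq (V i)] in
theorem lam2R_eq (H : Rs q r) (lo : ι → Prop) [DecidablePred lo] {lam : ∀ i, V i → ℝ}
    {nu : ℕ → ℝ} {A M : ℕ}
    (hlam : ∀ i, lo i → ∀ b < q i, lam i (r i b) = cm nu A M (q i) b) (i : ι) :
    refW (lo i) nu A M (q i) (vR H i) = lam2R lo lam q i := by
  funext x
  unfold refW lam2R
  by_cases h : lo i
  · rw [if_pos h, if_pos h]
    have h1 := hlam i h (vR H i x) (vR_lt H i x)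
    rw [r_vR H i x] at h1
    exact h1.symm
  · rw [if_neg h, if_neg h]
    unfold uw
    rw [H.card i, one_div]

/-- **the kernel part of a pair** (`H92.PPair` without the two laws) -/
structure KPair (Q : Prm) (S : Finset ι) (es : ι → ℝ) (lo : ι → Prop)
    (lam lam2 u : ∀ i, V i → ℝ) (K : ∀ i, V i → V i → ℝ) (c : ι → ℝ) (v v' : ∀ i, V i → ℝ)
    (s : ∀ i, V i → V i → ℝ) (rho e : ι → ℝ) : Prop where
  ob : H365.OB lam2 K c v v' s rho e
  nn : ∀ i a, 0 ≤ lam2 i a
  one : ∀ i, ∑ a, lam2 i a = 1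
  low : ∀ i, lo i → lam2 i = lam i
  high : ∀ i, ¬ lo i → lam2 i = u i
  lo1 : ∀ i, lo i → i ∈ S ∧ es i ≤ (2 - Q.kap) * Q.p + Real.log 2
  lo2 : ∀ i ∈ S, ¬ lo i → (2 - Q.kap) * Q.p < es i
  rho1 : ∀ i ∈ S, rho i ≤ Real.exp (-(1 / 2) * es i + Q.γ * es i)
  e1 : ∀ i ∈ S, e i ≤ Real.exp (-es i + Q.γ * es i)

omit [DecidableEq ι] in
/-- the pair of laws -/
theorem KPair.ppair {Q : Prm} {S : Finset ι} {es : ι → ℝ} {lo : ι → Prop}
    {lam lam2 u : ∀ i, V i → ℝ} {K : ∀ i, V i → V i → ℝ} {c : ι → ℝ} {v v' : ∀ i, V i → ℝ}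
    {s : ∀ i, V i → V i → ℝ} {rho e : ι → ℝ} [DecidableEq ι]
    (h : KPair Q S es lo lam lam2 u K c v v' s rho e) {ℓ : ι → ℝ} {mu mu' : (∀ i, V i) → ℝ}
    (hm : PLaw Q S ℓ es lam u mu) (hm' : PLaw Q S ℓ es lam u mu') :
    PPair Q S ℓ es lo lam lam2 u K c v v' s rho e mu mu' where
  law := hm
  law' := hm'
  ob := h.ob
  nn := h.nn
  one := h.one
  low := h.low
  high := h.high
  lo1 := h.lo1
  lo2 := h.lo2
  rho1 := h.rho1
  e1 := h.e1

/-- **the kernels on the typed sites** -/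
theorem kp_R (k : ℕ) (hk : 1 ≤ k) (α γ : ℝ) (hα : 0 < α) (hα1 : α ≤ 1 / 48)
    (hγ : 14 * α ≤ γ) :
    ∃ K0 : ℝ, 1 ≤ K0 ∧ ∀ (f g : ℤ[X]) (nu : ℕ → ℝ) (A M : ℕ) (ι : Type) [Fintype ι]
      [DecidableEq ι] (V : ι → Type) [∀ i, Fintype (V i)] [∀ i, DecidableEq (V i)]
      (q : ι → ℕ) (r : ∀ i, ℕ → V i) (lo : ι → Prop) [DecidablePred lo] (es : ι → ℝ)
      (lam : ∀ i, V i → ℝ) (Q : Prm) (H : Rs q r),
      Q.γ = γ → g.natDegree = k → Law nu A M → (∀ i, K0 ≤ q i ∧ GP g (q i)) →
      (∀ i, lo i → (∀ t : ℤ, kN g (q i) t = kN f (q i) t) ∧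
        PrSt f nu A M ((q i : ℝ) ^ α) (q i)) →
      (∀ i, es i - Real.log 2 ≤ Real.log (q i)) →
      (∀ i, Real.log 2 ≤ γ * es i) → (∀ i, 5 * Real.log 2 ≤ es i) →
      (∀ i, lo i → ∀ b < q i, lam i (r i b) = cm nu A M (q i) b) →
      (∀ i, lo i → es i ≤ (2 - Q.kap) * Q.p + Real.log 2) →
      (∀ i, ¬ lo i → (2 - Q.kap) * Q.p < es i) →
      ∃ (K : ∀ i, V i → V i → ℝ) (e e' : ∀ i, V i → ℝ) (w w' : ∀ i, V i → ℝ)
        (s : ∀ i, V i → V i → ℝ) (rho ee : ι → ℝ),
        (∀ i, lo i → OutW (fun x => cm nu A M (q i) (vR H i x))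
          (fun x y => kN g (q i) ((vR H i x : ℤ) - vR H i y)) (K i) (e i) (e' i) (q i) α) ∧
        (∀ i, ¬ lo i → K i = fun x y => kN g (q i) ((vR H i x : ℤ) - vR H i y)) ∧
        ∑ i, ee i ≤ 1 / 32 ∧
        KPair Q univ es lo lam (lam2R lo lam q) (uw q) K (fun _ => 0) w w' s rho ee := by
  obtain ⟨K0, hK0, H0⟩ := pair_ker k hk α γ hα hα1 hγ
  refine ⟨K0, hK0, fun f g nu A M ι _ _ V _ _ q r lo _ es lam Q H hQ hg hL hp hW hes hγes hes5
    hlam hlo1 hlo2 => ?_⟩
  have hinj : Function.Injective q := by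
    intro i j hij
    by_contra hne
    have h1 : (q i).Coprime (q j) := H.cop hne
    rw [← hij, Nat.coprime_self] at h1
    have := H.two i
    omega
  obtain ⟨K, e, e', w, w', s, rho, ee, h1, h2, h3, h4, h5, h6, h7, h8⟩ :=
    H0 f g nu A M ι q V (fun i => vR H i) lo (fun i => Real.log (q i)) es hg hL hinj hp
      (fun i => rs_vR H i) (fun i x => vR_lt H i x) hW
      (fun i => Real.exp_log (by exact_mod_cast H.pos i)) hes hγes hes5
  have href : (fun i => refW (lo i) nu A M (q i) (vR H i)) = lam2R lo lam q := by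
    funext i
    exact lam2R_eq H lo hlam i
  rw [href] at h3
  refine ⟨K, e, e', w, w', s, rho, ee, h1, h2, h8, ?_⟩
  exact
    { ob := h3
      nn := fun i a => by rw [← lam2R_eq H lo hlam i]; exact h4 i a
      one := fun i => by rw [← lam2R_eq H lo hlam i]; exact h5 i
      low := fun i hi => by unfold lam2R; rw [if_pos hi]
      high := fun i hi => by unfold lam2R; rw [if_neg hi]
      lo1 := fun i hi => ⟨mem_univ i, hlo1 i hi⟩
      lo2 := fun i _ hi => hlo2 i hi
      rho1 := fun i _ => by rw [hQ]; exact h6 i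
      e1 := fun i _ => by rw [hQ]; exact h7 i }

/-- **the pair on the typed sites** -/
theorem ppair_R (k : ℕ) (hk : 1 ≤ k) (α γ : ℝ) (hα : 0 < α) (hα1 : α ≤ 1 / 48)
    (hγ : 14 * α ≤ γ) :
    ∃ K0 : ℝ, 1 ≤ K0 ∧ ∀ (f g : ℤ[X]) (nu : ℕ → ℝ) (A M : ℕ) (ι : Type) [Fintype ι]
      [DecidableEq ι] (V : ι → Type) [∀ i, Fintype (V i)] [∀ i, DecidableEq (V i)]
      (q : ι → ℕ) (r : ∀ i, ℕ → V i) (lo : ι → Prop) [DecidablePred lo] (es : ι → ℝ)
      (lam : ∀ i, V i → ℝ) (Q : Prm) (H : Rs q r),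
      Q.γ = γ → g.natDegree = k → Law nu A M → (∀ i, K0 ≤ q i ∧ GP g (q i)) →
      (∀ i, lo i → (∀ t : ℤ, kN g (q i) t = kN f (q i) t) ∧
        PrSt f nu A M ((q i : ℝ) ^ α) (q i)) →
      (∀ i, es i - Real.log 2 ≤ Real.log (q i)) →
      (∀ i, Real.log 2 ≤ γ * es i) → (∀ i, 5 * Real.log 2 ≤ es i) →
      (∀ i, lo i → ∀ b < q i, lam i (r i b) = cm nu A M (q i) b) →
      (∀ i, lo i → es i ≤ (2 - Q.kap) * Q.p + Real.log 2) →
      (∀ i, ¬ lo i → (2 - Q.kap) * Q.p < es i) →
      ∃ (K : ∀ i, V i → V i → ℝ) (e e' : ∀ i, V i → ℝ) (w w' : ∀ i, V i → ℝ)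
        (s : ∀ i, V i → V i → ℝ) (rho ee : ι → ℝ),
        (∀ i, lo i → OutW (fun x => cm nu A M (q i) (vR H i x))
          (fun x y => kN g (q i) ((vR H i x : ℤ) - vR H i y)) (K i) (e i) (e' i) (q i) α) ∧
        (∀ i, ¬ lo i → K i = fun x y => kN g (q i) ((vR H i x : ℤ) - vR H i y)) ∧
        ∑ i, ee i ≤ 1 / 32 ∧
        ∀ mu mu' : (∀ i, V i) → ℝ,
          PLaw Q univ (fun i => Real.log (q i)) es lam (uw q) mu →
          PLaw Q univ (fun i => Real.log (q i)) es lam (uw q) mu' →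
          PPair Q univ (fun i => Real.log (q i)) es lo lam (lam2R lo lam q) (uw q) K
            (fun _ => 0) w w' s rho ee mu mu' := by
  obtain ⟨K0, hK0, H0⟩ := kp_R k hk α γ hα hα1 hγ
  refine ⟨K0, hK0, fun f g nu A M ι _ _ V _ _ q r lo _ es lam Q H hQ hg hL hp hW hes hγes hes5
    hlam hlo1 hlo2 => ?_⟩
  obtain ⟨K, e, e', w, w', s, rho, ee, h1, h2, h3, h4⟩ :=
    H0 f g nu A M ι V q r lo es lam Q H hQ hg hL hp hW hes hγes hes5 hlam hlo1 hlo2
  exact ⟨K, e, e', w, w', s, rho, ee, h1, h2, h3, fun mu mu' hm hm' => h4.ppair hm hm'⟩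

end pair

section opt

variable {ι : Type} [Fintype ι] [DecidableEq ι] {V : Option ι → Type} [∀ i, Fintype (V i)]
  [∀ i, DecidableEq (V i)] {q : Option ι → ℕ} {r : ∀ i, ℕ → V i}

/-- the low sites of the extended family -/
def loO (lo : ι → Prop) : Option ι → Prop
  | none => False
  | some i => lo i

/-- decidability of the low sites of the extended family -/
@[reducible] def decLoO (lo : ι → Prop) [DecidablePred lo] : DecidablePred (loO lo)
  | none => isFalse id
  | some i => inferInstanceAs (Decidable (lo i))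

omit [Fintype ι] [DecidableEq ι] [∀ i, DecidableEq (V i)] in
theorem rs_some (H : Rs q r) : Rs (fun i : ι => q (some i)) (fun i => r (some i)) where
  two _ := H.two _
  cop _ _ hij := H.cop fun h => hij (Option.some_injective _ h)
  r_iff _ n m := H.r_iff _ n m
  card _ := H.card _

omit [Fintype ι] [DecidableEq ι] [∀ i, DecidableEq (V i)] in
theorem vR_some (H : Rs q r) (i : ι) : vR (rs_some H) i = vR H (some i) := rfl

/-- **the kernels with one super-modulus** at `none` -/
theorem kp_O (g : ℤ[X]) (PP : Finset ℕ) (hPP : NS g PP) (H : Rs q r) {lo : ι → Prop}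
    [DecidablePred lo] [DecidablePred (loO lo)] {es : Option ι → ℝ} {lam : ∀ i, V i → ℝ}
    {Q : Prm} {K : ∀ i : ι, V (some i) → V (some i) → ℝ} {w w' : ∀ i : ι, V (some i) → ℝ}
    {s : ∀ i : ι, V (some i) → V (some i) → ℝ} {rho ee : ι → ℝ}
    (hP : KPair Q univ (fun i => es (some i)) lo
      (fun i => lam (some i)) (lam2R lo (fun i => lam (some i)) (fun i => q (some i)))
      (uw fun i => q (some i)) K (fun _ => 0) w w' s rho ee) :
    ∃ (K' : ∀ i, V i → V i → ℝ) (c' : Option ι → ℝ) (u1 u1' : ∀ i, V i → ℝ)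
      (s' : ∀ i, V i → V i → ℝ) (rho' e' : Option ι → ℝ),
      (∀ i, K' (some i) = K i) ∧ K' none = ooK g PP (q none) (vR H none) ∧
      (∀ i, rho' (some i) = rho i) ∧ rho' none = q none ∧ (∀ i, e' (some i) = ee i) ∧
      e' none = 0 ∧
      KPair Q (univ.erase none) es (loO lo) lam
          (lam2R (loO lo) lam q) (uw q) K' c' u1 u1' s' rho' e' := by
  have hs : ∀ i : ι, lam2R (loO lo) lam q (some i) =
      lam2R lo (fun i => lam (some i)) (fun i => q (some i)) i := by
    intro i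
    unfold lam2R
    by_cases h : lo i
    · have h1 : loO lo (some i) := h
      rw [if_pos h, if_pos h1]
    · have h1 : ¬ loO lo (some i) := h
      rw [if_neg h, if_neg h1]
      rfl
  have hn : lam2R (loO lo) lam q none = fun _ : V none => (Fintype.card (V none) : ℝ)⁻¹ := by
    have h1 : ¬ loO lo (none : Option ι) := fun h => h
    unfold lam2R
    rw [if_neg h1]
    funext x
    unfold uw
    rw [H.card none, one_div]
  have h0 := ooK_OB (g := g) hPP (H.two none) (rs_vR H none)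
  have hob := hP.ob
  have hfun : (fun i : ι => lam2R (loO lo) lam q (some i)) =
      lam2R lo (fun i => lam (some i)) (fun i => q (some i)) := funext hs
  rw [← hfun] at hob
  have h0' : H365.OB (fun _ : Unit => lam2R (loO lo) lam q none)
      (fun _ => ooK g PP (q none) (vR H none)) (fun _ => 0) (fun _ _ => 0) (fun _ _ => 0)
      (fun _ => ooK g PP (q none) (vR H none)) (fun _ => ((q none : ℕ) : ℝ)) (fun _ => 0) := by
    rw [hn]
    exact h0
  obtain ⟨K', c', u1, u1', s', rho', e', a1, a2, a3, a4, a5, a6, a7⟩ := OB_ext hob h0'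
  refine ⟨K', c', u1, u1', s', rho', e', a1, a2, a3, a4, a5, a6, ?_⟩
  have hq0 : (0 : ℝ) < q none := by exact_mod_cast H.pos none
  exact
    { ob := a7
      nn := fun i a => by
        cases i with
        | none =>
          rw [hn]
          positivity
        | some i =>
          rw [hs i]
          exact hP.nn i a
      one := fun i => by
        cases i with
        | none =>
          rw [hn, sum_const, card_univ, nsmul_eq_mul, H.card none, mul_inv_cancel₀ hq0.ne']
        | some i =>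
          rw [hs i]
          exact hP.one i
      low := fun i hi => by unfold lam2R; rw [if_pos hi]
      high := fun i hi => by unfold lam2R; rw [if_neg hi]
      lo1 := fun i hi => by
        cases i with
        | none => exact hi.elim
        | some i => exact ⟨mem_erase.2 ⟨Option.some_ne_none i, mem_univ _⟩, (hP.lo1 i hi).2⟩
      lo2 := fun i hi hl => by
        cases i with
        | none => exact absurd rfl (mem_erase.1 hi).1
        | some i => exact hP.lo2 i (mem_univ i) hl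
      rho1 := fun i hi => by
        cases i with
        | none => exact absurd rfl (mem_erase.1 hi).1
        | some i =>
          rw [a3 i]
          exact hP.rho1 i (mem_univ i)
      e1 := fun i hi => by
        cases i with
        | none => exact absurd rfl (mem_erase.1 hi).1
        | some i =>
          rw [a5 i]
          exact hP.e1 i (mem_univ i) }

/-- **the pair with one super-modulus** at `none` -/
theorem ppair_O (g : ℤ[X]) (PP : Finset ℕ) (hPP : NS g PP) (H : Rs q r) {lo : ι → Prop}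
    [DecidablePred lo] [DecidablePred (loO lo)] {es : Option ι → ℝ} {lam : ∀ i, V i → ℝ}
    {Q : Prm} {K : ∀ i : ι, V (some i) → V (some i) → ℝ} {w w' : ∀ i : ι, V (some i) → ℝ}
    {s : ∀ i : ι, V (some i) → V (some i) → ℝ} {rho ee : ι → ℝ}
    {mu0 mu0' : (∀ i : ι, V (some i)) → ℝ}
    (hP : PPair Q univ (fun i : ι => Real.log (q (some i))) (fun i => es (some i)) lo
      (fun i => lam (some i)) (lam2R lo (fun i => lam (some i)) (fun i => q (some i)))
      (uw fun i => q (some i)) K (fun _ => 0) w w' s rho ee mu0 mu0') :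
    ∃ (K' : ∀ i, V i → V i → ℝ) (c' : Option ι → ℝ) (u1 u1' : ∀ i, V i → ℝ)
      (s' : ∀ i, V i → V i → ℝ) (rho' e' : Option ι → ℝ),
      (∀ i, K' (some i) = K i) ∧ K' none = ooK g PP (q none) (vR H none) ∧
      (∀ i, rho' (some i) = rho i) ∧ rho' none = q none ∧ (∀ i, e' (some i) = ee i) ∧
      e' none = 0 ∧
      ∀ mu mu' : (∀ i, V i) → ℝ,
        PLaw Q (univ.erase none) (fun i => Real.log (q i)) es lam (uw q) mu →
        PLaw Q (univ.erase none) (fun i => Real.log (q i)) es lam (uw q) mu' →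
        PPair Q (univ.erase none) (fun i => Real.log (q i)) es (loO lo) lam
          (lam2R (loO lo) lam q) (uw q) K' c' u1 u1' s' rho' e' mu mu' := by
  obtain ⟨K', c', u1, u1', s', rho', e', a1, a2, a3, a4, a5, a6, a7⟩ :=
    kp_O g PP hPP H (lo := lo) (es := es) (lam := lam) (Q := Q)
      ⟨hP.ob, hP.nn, hP.one, hP.low, hP.high, hP.lo1, hP.lo2, hP.rho1, hP.e1⟩
  exact ⟨K', c', u1, u1', s', rho', e', a1, a2, a3, a4, a5, a6,
    fun mu mu' hm hm' => a7.ppair hm hm'⟩

end opt

end Vale.Agent.P042.H452
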