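import Vale.Agent.P042.H452.KIn

set_option autoImplicit false

/-!
P042, power regime: the last step of the local hypothesis: normalised cells, and the low sites as
primes of the integer side.
-/

namespace Vale.Agent.P042.H452

open Polynomial Finset Vale.Agent.P042.SS Vale.Agent.P042.H74
open Vale.Agent.P042.H860 (Inst Ok Si Typ mo rn mem_Typ)
open Vale.Agent.P042.H739 (Wst cell q0s q1s Tst)
open Vale.Agent.P042.H245 (PPf)
open Vale.Agent.P042.H359 (cmass)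

section equiv

variable {ι κ : Type*} (e : ι ≃ κ)

theorem low_map [Fintype ι] [DecidableEq ι] [Fintype κ] [DecidableEq κ] (m0 : ℕ)
    (F : Finset κ → ℂ) :
    ∑ B ∈ low κ m0, F B = ∑ C ∈ low ι m0, F (C.map e.toEmbedding) := by
  symm
  refine Finset.sum_bij (fun C _ => C.map e.toEmbedding) ?_ ?_ ?_ ?_
  · intro C hC
    rw [mem_low] at *
    rwa [card_map]
  · intro a _ b _ h
    exact Finset.map_injective _ h
  · intro B hB
    refine ⟨B.map e.symm.toEmbedding, ?_, ?_⟩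
    · rw [mem_low, card_map]
      exact mem_low.1 hB
    · rw [map_map]
      ext x
      simp
  · intro C _
    rfl

theorem FB_map (g : ℤ[X]) (PP : Finset ℕ) (S1 S2 : Finset ℤ) (w w' : ℤ → ℝ)
    (K : κ → ℤ → ℤ → ℝ) (C : Finset ι) (m2 : ℕ) :
    FB g PP S1 S2 w w' K (C.map e.toEmbedding) m2 =
      FB g PP S1 S2 w w' (fun i => K (e i)) C m2 := by
  unfold FB
  simp only [prod_map, Equiv.coe_toEmbedding]

theorem MM_map [Fintype ι] [DecidableEq ι] [Fintype κ] [DecidableEq κ] (T : Finset ℕ) (prm : κ → ℕ) (M0 : ℕ) :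
    MM T (fun i : ι => prm (e i)) M0 = MM T prm M0 := by
  unfold MM
  refine filter_congr fun m _ => ?_
  constructor
  · rintro ⟨h1, h2⟩
    refine ⟨h1, fun i => ?_⟩
    have h3 : ¬ prm (e (e.symm i)) ∣ m := h2 (e.symm i)
    rwa [e.apply_symm_apply] at h3
  · rintro ⟨h1, h2⟩
    exact ⟨h1, fun i => h2 (e i)⟩

end equiv

theorem FB_norm {ι : Type*} (g : ℤ[X]) (PP : Finset ℕ) (S1 S2 : Finset ℤ) (w w' : ℤ → ℝ)
    (a b : ℝ) (K : ι → ℤ → ℤ → ℝ) (B : Finset ι) (m2 : ℕ) :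
    FB g PP S1 S2 (fun n => w n / a) (fun n => w' n / b) K B m2 =
      (((a * b)⁻¹ : ℝ) : ℂ) * FB g PP S1 S2 w w' K B m2 := by
  unfold FB
  rw [mul_sum]
  refine sum_congr rfl fun n _ => ?_
  rw [mul_sum]
  refine sum_congr rfl fun m _ => ?_
  rw [← mul_assoc, ← Complex.ofReal_mul]
  congr 2
  rw [mul_inv]
  ring

/-- **the lower bound for the cells** from the lower bound for the normalised cells, low sites ->
primes of the integer side -/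
theorem unnorm {ι κ : Type*} [Fintype ι] [DecidableEq ι] [Fintype κ] [DecidableEq κ] (e : ι ≃ κ)
    (g : ℤ[X]) (PP T : Finset ℕ) (S1 S2 : Finset ℤ) (w w' : ℤ → ℝ) {a b x : ℝ} (ha : 0 < a)
    (hb : 0 < b) (K : κ → ℤ → ℤ → ℝ) (K' : ι → ℤ → ℤ → ℝ) (hK : ∀ i, K' i = K (e i))
    (prm : κ → ℕ) (prm' : ι → ℕ) (hp : ∀ i, prm' i = prm (e i)) (m0 M0 : ℕ)
    (h : x ≤ ‖∑ C ∈ low ι m0, ∑ m2 ∈ MM T prm' M0,
      FB g PP S1 S2 (fun n => w n / a) (fun n => w' n / b) K' C m2‖) :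
    x * (a * b) ≤ ‖∑ B ∈ low κ m0, ∑ m2 ∈ MM T prm M0, FB g PP S1 S2 w w' K B m2‖ := by
  have hK' : K' = fun i => K (e i) := funext hK
  have hp' : prm' = fun i => prm (e i) := funext hp
  subst hK'
  subst hp'
  rw [low_map e]
  rw [MM_map e T prm M0] at h
  have h1 : ∑ C ∈ low ι m0, ∑ m2 ∈ MM T prm M0,
      FB g PP S1 S2 (fun n => w n / a) (fun n => w' n / b) (fun i => K (e i)) C m2 =
      (((a * b)⁻¹ : ℝ) : ℂ) * ∑ C ∈ low ι m0, ∑ m2 ∈ MM T prm M0,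
        FB g PP S1 S2 w w' K (C.map e.toEmbedding) m2 := by
    rw [mul_sum]
    refine sum_congr rfl fun C _ => ?_
    rw [mul_sum]
    refine sum_congr rfl fun m2 _ => ?_
    rw [FB_norm, FB_map]
  rw [h1, norm_mul, Complex.norm_real, Real.norm_of_nonneg (by positivity)] at h
  have hab : 0 < a * b := mul_pos ha hb
  rwa [← div_eq_inv_mul, le_div_iff₀ hab] at h

/-- **the conclusion of `HLOCat` at one instance** from the tilts and the lower bound for the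
normalised cells at the low sites -/
theorem hloc_fin {I : Inst} {kap θ ε : ℝ}
    {K : ∀ i : Si I.K0 I.C1 I.P, ZMod (qS I.K0 I.C1 I.P i) → ZMod (qS I.K0 I.C1 I.P i) → ℝ}
    (hT : Tilts I kap K) (hsub : Wst I.K0 kap I.P ⊆ Typ I.K0 I.C1 I.P)
    (hm1 : 0 < I.m1) (hm2 : 0 < I.m2)
    (hfin : Real.exp (-(ε * I.P)) ≤
      ‖∑ C ∈ low {i : Si I.K0 I.C1 I.P // H860.lo I kap i} ⌊θ * I.P / Real.log I.P⌋₊,
        ∑ m2 ∈ MM (Tst I.K0)
          (fun i : {i : Si I.K0 I.C1 I.P // H860.lo I kap i} => qS I.K0 I.C1 I.P i)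
          ⌊Real.exp (θ * I.P)⌋₊,
        FB I.g I.PP I.S1 I.S2 I.f1 I.f2
          (fun i n n' => K i.1 (n : ZMod (qS I.K0 I.C1 I.P i.1))
            (n' : ZMod (qS I.K0 I.C1 I.P i.1))) C m2‖) :
    ∃ (e e' : {p // p ∈ Wst I.K0 kap I.P} → ℤ → ℝ) (b b' : {p // p ∈ Wst I.K0 kap I.P} → ℝ)
      (K : {p // p ∈ Wst I.K0 kap I.P} → ℤ → ℤ → ℝ),
      (∀ i, 0 ≤ b i) ∧ (∀ i, 0 ≤ b' i) ∧
      (∀ i n, e i (n + (i.1 : ℕ)) = e i n) ∧ (∀ i n, e' i (n + (i.1 : ℕ)) = e' i n) ∧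
      (∀ i, ∑ x ∈ range i.1, e i (x : ℤ) ^ 2 ≤ (i.1 : ℕ) * b i ^ 2) ∧
      (∀ i, ∑ x ∈ range i.1, e' i (x : ℤ) ^ 2 ≤ (i.1 : ℕ) * b' i ^ 2) ∧
      (∑ i, (b i + b' i) ≤ I.P ^ (1 - kap / 4)) ∧
      (∀ i, ∀ n ∈ cell (q0s I.k I.R I.K0 I.f I.z0) I.w I.z1 I.h0,
        ∀ m ∈ cell (q0s I.k I.R I.K0 I.f I.z0)
          (I.w - ((I.f.eval (I.z0 : ℤ) : ℤ) : ZMod _)) I.z2 I.h0,
        1 + K i n m =
          (1 + e i n) * (1 + kN (fer I.f (q1s I.k I.R I.K0) I.z0) i.1 (n - m)) *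
            (1 + e' i m)) ∧
      Real.exp (-(ε * I.P)) * (cmass I.G (q0s I.k I.R I.K0 I.f I.z0) I.w I.z1 I.h0 *
          cmass I.G (q0s I.k I.R I.K0 I.f I.z0)
            (I.w - ((I.f.eval (I.z0 : ℤ) : ℤ) : ZMod _)) I.z2 I.h0) ≤
        ‖∑ B ∈ low {p // p ∈ Wst I.K0 kap I.P} ⌊θ * I.P / Real.log I.P⌋₊,
          ∑ m2 ∈ MM (Tst I.K0) (fun i : {p // p ∈ Wst I.K0 kap I.P} => i.1)
            ⌊Real.exp (θ * I.P)⌋₊,
          FB (fer I.f (q1s I.k I.R I.K0) I.z0)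
            (PPf I.C1 (fer I.f (q1s I.k I.R I.K0) I.z0) I.P)
            (cell (q0s I.k I.R I.K0 I.f I.z0) I.w I.z1 I.h0)
            (cell (q0s I.k I.R I.K0 I.f I.z0)
              (I.w - ((I.f.eval (I.z0 : ℤ) : ℤ) : ZMod _)) I.z2 I.h0) I.G I.G K B m2‖ := by
  refine hlocat_end hT hsub ?_
  exact unnorm (H860.loEquiv I kap hsub) I.g I.PP (Tst I.K0) I.S1 I.S2 I.G I.G hm1 hm2
    (fun i n m => K ⟨i.1, hsub i.2⟩ (n : ZMod i.1) (m : ZMod i.1)) _ (fun _ => rfl)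
    (fun i => i.1) _ (fun _ => rfl) _ _ hfin

end Vale.Agent.P042.H452
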