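import Vale.Agent.P042.H452.KerL
import Vale.Agent.P042.H377.SumB

set_option autoImplicit false

/-!
P042, power regime: the whole tilt part of the local hypothesis of the integer side.
-/

namespace Vale.Agent.P042.H452

open Polynomial Finset Vale.Agent.P042.SS Vale.Agent.P042.H74 Vale.Agent.P042.H954
open Vale.Agent.P042.H599 (cm Law klu)
open Vale.Agent.P042.H386 (OutW kLu)
open Vale.Agent.P042.H739 (Wst)

/-- **the tilts of the low primes** (typed sites `a`, low sites the images of the primes of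
`Wst K0 g P`) -/
theorem hloc_tilts (g α : ℝ) (hg : 0 < g) (hg1 : g ≤ 1 / 2) (hα : 0 < α) (hα1 : α ≤ g / 128) :
    ∃ P0 : ℝ, ∀ P : ℝ, P0 ≤ P → ∀ (K0 : ℕ) (a : Type) (prm : a → ℕ) (V : a → Type)
      [∀ i, Fintype (V i)] (v : ∀ i, V i → ℕ) (red : ℤ → ∀ i, V i) (h : ℤ[X]) (nu : ℕ → ℝ)
      (A M : ℕ) (K : ∀ i, V i → V i → ℝ) (e e' : ∀ i, V i → ℝ)
      (j : {p // p ∈ Wst K0 g P} → a),
      (∀ i, prm (j i) = i.1) → (∀ i, Rs (V i) (prm i) (v i)) →
      (∀ n i, ((prm i : ℕ) : ℤ) ∣ n - v i (red n i)) → Law nu A M →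
      (∀ i, OutW (fun x => cm nu A M (prm (j i)) (v (j i) x))
        (fun x y => kN h (prm (j i)) ((v (j i) x : ℤ) - v (j i) y)) (K (j i)) (e (j i))
        (e' (j i)) (prm (j i)) α) →
      (∀ i b, (prm (j i) : ℝ) * cm nu A M (prm (j i)) b ≤ (prm (j i) : ℝ) ^ α) →
      ∃ b : {p // p ∈ Wst K0 g P} → ℝ,
        (∀ i, 0 ≤ b i) ∧
        (∀ i n, e (j i) (red (n + (i.1 : ℕ)) (j i)) = e (j i) (red n (j i))) ∧
        (∀ i n, e' (j i) (red (n + (i.1 : ℕ)) (j i)) = e' (j i) (red n (j i))) ∧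
        (∀ i, ∑ x ∈ range i.1, e (j i) (red (x : ℤ) (j i)) ^ 2 ≤ (i.1 : ℕ) * b i ^ 2) ∧
        (∀ i, ∑ x ∈ range i.1, e' (j i) (red (x : ℤ) (j i)) ^ 2 ≤ (i.1 : ℕ) * b i ^ 2) ∧
        (∑ i, (b i + b i) ≤ P ^ (1 - g / 4)) ∧
        (∀ i, ∀ n m : ℤ, 1 + K (j i) (red n (j i)) (red m (j i)) =
          (1 + e (j i) (red n (j i))) * (1 + kN h i.1 (n - m)) *
            (1 + e' (j i) (red m (j i)))) := by
  obtain ⟨P0, hP0⟩ := H377.sumB g α hg hg1 hα hα1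
  refine ⟨P0, fun P hP K0 a prm V _ v red h nu A M K e e' j hj hRs hred hL hW hs => ?_⟩
  have hpos : ∀ i : {p // p ∈ Wst K0 g P}, 1 ≤ i.1 := by
    intro i
    have h1 := i.2
    unfold Wst at h1
    rw [mem_filter] at h1
    exact h1.2.1.one_lt.le
  have key : ∀ i : {p // p ∈ Wst K0 g P},
      (∀ n : ℤ, e (j i) (red (n + (prm (j i) : ℕ)) (j i)) = e (j i) (red n (j i))) ∧
      (∀ n : ℤ, e' (j i) (red (n + (prm (j i) : ℕ)) (j i)) = e' (j i) (red n (j i))) ∧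
      ∑ x ∈ range (prm (j i)), e (j i) (red (x : ℤ) (j i)) ^ 2 ≤
        (prm (j i) : ℕ) * ((prm (j i) : ℝ) ^ (8 * α - 1 / 2)) ^ 2 ∧
      ∑ x ∈ range (prm (j i)), e' (j i) (red (x : ℤ) (j i)) ^ 2 ≤
        (prm (j i) : ℕ) * ((prm (j i) : ℝ) ^ (8 * α - 1 / 2)) ^ 2 ∧
      ∀ n m : ℤ, 1 + K (j i) (red n (j i)) (red m (j i)) =
        (1 + e (j i) (red n (j i))) * (1 + kN h (prm (j i)) (n - m)) *
          (1 + e' (j i) (red m (j i))) := by
    intro i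
    have hp : 0 < prm (j i) := by
      rw [hj i]
      exact hpos i
    refine tilt_one hp (hRs (j i)) (r := fun n => red n (j i)) (fun n => hred n (j i)) (hW i) ?_
    refine tilt_b (hRs (j i)).card hp (fun x => H599.cm_nonneg hL.nonneg _ _) ?_ hα.le
      (fun x => hs i _)
    rw [(hRs (j i)).sum fun b => cm nu A M (prm (j i)) b]
    exact H599.sum_cm hL.sum hp
  refine ⟨fun i => ((i.1 : ℕ) : ℝ) ^ (8 * α - 1 / 2), fun i => Real.rpow_nonneg
    (Nat.cast_nonneg _) _, fun i n => ?_, fun i n => ?_, fun i => ?_, fun i => ?_,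
    hP0 P hP K0, fun i n m => ?_⟩
  · have h1 := (key i).1 n
    rwa [hj i] at h1
  · have h1 := (key i).2.1 n
    rwa [hj i] at h1
  · have h1 := (key i).2.2.1
    rwa [hj i] at h1
  · have h1 := (key i).2.2.2.1
    rwa [hj i] at h1
  · have h1 := (key i).2.2.2.2 n m
    rwa [hj i] at h1

end Vale.Agent.P042.H452
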