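import Vale.Agent.P042.H860.Glue
import Vale.Agent.P042.H883.Frame
import Vale.Agent.P042.H945.PLawA
import Vale.Agent.P042.H452.PairR
import Vale.Agent.P042.H452.KerT

set_option autoImplicit false

/-!
P042, power regime: the kernels at one instance of the local hypothesis of the integer side.
-/

namespace Vale.Agent.P042.H452

open Polynomial Finset Vale.Agent.P042.SS Vale.Agent.P042.H74
open Vale.Agent.P042.H599 (cm Law)
open Vale.Agent.P042.H386 (OutW PrSt GP)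
open Vale.Agent.P042.H438 (Rs uw)
open Vale.Agent.P042.H92 (Prm PLaw PPair)
open Vale.Agent.P042.H860 (Inst Ok Si Typ mo rn mem_Typ)
open Vale.Agent.P042.H945 (lamR)
open Vale.Agent.P042.H739 (Wst cell q0s q1s Tst)
open Vale.Agent.P042.H245 (PPf)
open Vale.Agent.P042.H359 (cmass)
open Vale.Agent.P042.H362 (FP AtF)
open Vale.Agent.P042.H883 (esN)

section res

variable {a : Type} {q : a → ℕ} [∀ i, NeZero (q i)]

theorem rs_rn (h2 : ∀ i, 2 ≤ q i) (hc : Pairwise fun i j => (q i).Coprime (q j)) :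
    Rs q (rn q) where
  two := h2
  cop := hc
  r_iff i n m := ZMod.natCast_eq_natCast_iff n m (q i)
  card i := ZMod.card (q i)

/-- the representative of the residue of an integer -/
theorem vR_cast (H : Rs q (rn q)) (i : a) (n : ℤ) :
    ((q i : ℕ) : ℤ) ∣ n - vR H i (n : ZMod (q i)) := by
  have h1 : ((vR H i (n : ZMod (q i)) : ℕ) : ZMod (q i)) = (n : ZMod (q i)) :=
    r_vR H i (n : ZMod (q i))
  rw [← ZMod.intCast_zmod_eq_zero_iff_dvd]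
  push_cast
  rw [h1, sub_self]

/-- the reference at one site -/
theorem lamR_rn [Fintype a] [DecidableEq a] (H : Rs q (rn q)) (S : Finset a) (mu : ℕ → ℝ)
    (N : ℕ) {i : a} (hi : i ∈ S) {b : ℕ} (hb : b < q i) :
    lamR S q (rn q) mu N i (rn q i b) = cm mu 1 N (q i) b := by
  unfold lamR
  rw [if_pos hi]
  exact H945.m1_pf H mu N i hb

theorem lamR_val [Fintype a] [DecidableEq a] (H : Rs q (rn q)) (S : Finset a) (mu : ℕ → ℝ)
    (N : ℕ) {i : a} (hi : i ∈ S) (x : ZMod (q i)) :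
    lamR S q (rn q) mu N i x = cm mu 1 N (q i) x.val := by
  have h1 := lamR_rn H S mu N hi (ZMod.val_lt x)
  have h2 : rn q i x.val = x := ZMod.natCast_zmod_val x
  rwa [h2] at h1

end res

/-- the modulus of a site -/
abbrev qS (K0 : ℕ) (C1 P : ℝ) (i : Si K0 C1 P) : ℕ := i.1

/-- the modulus of a site, one super-modulus `m` -/
abbrev qM (K0 : ℕ) (C1 P : ℝ) (m : ℕ) (i : Option (Si K0 C1 P)) : ℕ := mo (qS K0 C1 P) m i

theorem rs_S (K0 : ℕ) (C1 P : ℝ) : Rs (qS K0 C1 P) (rn (qS K0 C1 P)) :=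
  rs_rn (fun i => (mem_Typ.1 i.2).2.1.two_le) fun i j hij =>
    (Nat.coprime_primes (mem_Typ.1 i.2).2.1 (mem_Typ.1 j.2).2.1).2 fun h => hij (Subtype.ext h)

theorem rs_M (K0 : ℕ) (C1 P : ℝ) {m : ℕ} [NeZero m] (hm : 2 ≤ m)
    (hc : ∀ i : Si K0 C1 P, m.Coprime i.1) : Rs (qM K0 C1 P m) (rn (qM K0 C1 P m)) := by
  refine rs_rn ?_ ?_
  · rintro (_ | i)
    · exact hm
    · exact (rs_S K0 C1 P).two i
  · rintro (_ | i) (_ | j) hij
    · exact absurd rfl hij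
    · exact hc j
    · exact (hc i).symm
    · exact (rs_S K0 C1 P).cop fun h => hij (congrArg some h)

instance instDecLoO {ι : Type} (lo : ι → Prop) [DecidablePred lo] : DecidablePred (loO lo) :=
  decLoO lo

/-- the marginals of the state -/
noncomputable abbrev lamS (I : Inst) : ∀ i : Si I.K0 I.C1 I.P, ZMod (qS I.K0 I.C1 I.P i) → ℝ :=
  lamR univ (qS I.K0 I.C1 I.P) (rn (qS I.K0 I.C1 I.P)) I.mu I.N

/-- the marginals of the state, one super-modulus -/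
noncomputable abbrev lamM (I : Inst) (m : ℕ) [NeZero m] :
    ∀ i : Option (Si I.K0 I.C1 I.P), ZMod (qM I.K0 I.C1 I.P m i) → ℝ :=
  lamR (univ.erase none) (qM I.K0 I.C1 I.P m) (rn (qM I.K0 I.C1 I.P m)) I.mu I.N

/-- the first conjuncts of `HLOCat` (the same number `b` for both tilts) -/
def Tilts (I : Inst) (kap : ℝ)
    (K : ∀ i : Si I.K0 I.C1 I.P, ZMod (qS I.K0 I.C1 I.P i) → ZMod (qS I.K0 I.C1 I.P i) → ℝ) :
    Prop :=
  ∃ (e e' : {p // p ∈ Wst I.K0 kap I.P} → ℤ → ℝ) (b : {p // p ∈ Wst I.K0 kap I.P} → ℝ),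
    (∀ i, 0 ≤ b i) ∧
    (∀ i n, e i (n + (i.1 : ℕ)) = e i n) ∧ (∀ i n, e' i (n + (i.1 : ℕ)) = e' i n) ∧
    (∀ i, ∑ x ∈ range i.1, e i (x : ℤ) ^ 2 ≤ (i.1 : ℕ) * b i ^ 2) ∧
    (∀ i, ∑ x ∈ range i.1, e' i (x : ℤ) ^ 2 ≤ (i.1 : ℕ) * b i ^ 2) ∧
    (∑ i, (b i + b i) ≤ I.P ^ (1 - kap / 4)) ∧
    ∀ (i : {p // p ∈ Wst I.K0 kap I.P}) (h : i.1 ∈ Typ I.K0 I.C1 I.P) (n m : ℤ),
      1 + K ⟨i.1, h⟩ (n : ZMod i.1) (m : ZMod i.1) =
        (1 + e i n) * (1 + kN I.g i.1 (n - m)) * (1 + e' i m)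

/-- the kernels on the sites and one super-modulus `m` -/
def KOpt (I : Inst) (kap : ℝ) (Q : Prm)
    (K : ∀ i : Si I.K0 I.C1 I.P, ZMod (qS I.K0 I.C1 I.P i) → ZMod (qS I.K0 I.C1 I.P i) → ℝ)
    (rho ee : Si I.K0 I.C1 I.P → ℝ) (m : ℕ) [NeZero m] : Prop :=
  ∃ (K' : ∀ i : Option (Si I.K0 I.C1 I.P),
      ZMod (qM I.K0 I.C1 I.P m i) → ZMod (qM I.K0 I.C1 I.P m i) → ℝ)
    (c' : Option (Si I.K0 I.C1 I.P) → ℝ)
    (w w' : ∀ i : Option (Si I.K0 I.C1 I.P), ZMod (qM I.K0 I.C1 I.P m i) → ℝ)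
    (s : ∀ i : Option (Si I.K0 I.C1 I.P),
      ZMod (qM I.K0 I.C1 I.P m i) → ZMod (qM I.K0 I.C1 I.P m i) → ℝ)
    (rho' e' : Option (Si I.K0 I.C1 I.P) → ℝ),
    (∀ i : Si I.K0 I.C1 I.P, K' (some i) = K i) ∧
    (∀ n n' : ℤ, Ram I.g I.PP m (n - n') =
      ((K' none ((n : ℤ) : ZMod m) ((n' : ℤ) : ZMod m) : ℝ) : ℂ)) ∧
    (∀ i, rho' (some i) = rho i) ∧ rho' none = m ∧ (∀ i, e' (some i) = ee i) ∧
    e' none = 0 ∧
    KPair Q (univ.erase none) (fun i => esN (qM I.K0 I.C1 I.P m i)) (loO (H860.lo I kap))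
      (lamM I m) (lam2R (loO (H860.lo I kap)) (lamM I m) (qM I.K0 I.C1 I.P m))
      (uw (qM I.K0 I.C1 I.P m)) K' c' w w' s rho' e'

theorem kOpt_of {I : Inst} {κ kap : ℝ} (h : Ok I κ) {Q : Prm}
    {K : ∀ i : Si I.K0 I.C1 I.P, ZMod (qS I.K0 I.C1 I.P i) → ZMod (qS I.K0 I.C1 I.P i) → ℝ}
    {w w' : ∀ i : Si I.K0 I.C1 I.P, ZMod (qS I.K0 I.C1 I.P i) → ℝ}
    {s : ∀ i : Si I.K0 I.C1 I.P, ZMod (qS I.K0 I.C1 I.P i) → ZMod (qS I.K0 I.C1 I.P i) → ℝ}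
    {rho ee : Si I.K0 I.C1 I.P → ℝ}
    (hP : KPair Q univ (fun i => esN (qS I.K0 I.C1 I.P i)) (H860.lo I kap) (lamS I)
      (lam2R (H860.lo I kap) (lamS I) (qS I.K0 I.C1 I.P)) (uw (qS I.K0 I.C1 I.P)) K
      (fun _ => 0) w w' s rho ee) (m : ℕ) [NeZero m] (hm : 2 ≤ m)
    (hc : ∀ i : Si I.K0 I.C1 I.P, m.Coprime i.1) : KOpt I kap Q K rho ee m := by
  have HM := rs_M I.K0 I.C1 I.P hm hc
  have HS := rs_S I.K0 I.C1 I.P
  have hlam : (fun i : Si I.K0 I.C1 I.P => lamM I m (some i)) = lamS I := by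
    funext i x
    have h1 := lamR_val HM (univ.erase none) I.mu I.N
      (mem_erase.2 ⟨Option.some_ne_none i, mem_univ _⟩) x
    have h2 := lamR_val HS univ I.mu I.N (mem_univ i) x
    exact h1.trans h2.symm
  have hP' : KPair Q univ (fun i : Si I.K0 I.C1 I.P => esN (qM I.K0 I.C1 I.P m (some i)))
      (H860.lo I kap) (fun i : Si I.K0 I.C1 I.P => lamM I m (some i))
      (lam2R (H860.lo I kap) (fun i : Si I.K0 I.C1 I.P => lamM I m (some i))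
        (fun i => qM I.K0 I.C1 I.P m (some i)))
      (uw fun i => qM I.K0 I.C1 I.P m (some i)) K (fun _ => 0) w w' s rho ee := by
    rw [hlam]
    exact hP
  obtain ⟨K', c', u1, u1', s', rho', e', a1, a2, a3, a4, a5, a6, a7⟩ :=
    kp_O I.g I.PP h.NS HM (es := fun i => esN (qM I.K0 I.C1 I.P m i)) hP'
  refine ⟨K', c', u1, u1', s', rho', e', a1, fun n n' => ?_, a3, a4, a5, a6, a7⟩
  rw [Ram_ramK h.NS (by omega : 1 ≤ m), a2]
  congr 1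
  unfold ooK
  have e1 := vR_cast HM none n
  have e2 := vR_cast HM none n'
  refine ramK_shift (by omega : 1 ≤ m) ?_
  have e3 := dvd_sub e1 e2
  have e4 : n - vR HM none (n : ZMod (qM I.K0 I.C1 I.P m none)) -
      (n' - vR HM none (n' : ZMod (qM I.K0 I.C1 I.P m none))) =
      n - n' - ((vR HM none (n : ZMod (qM I.K0 I.C1 I.P m none)) : ℤ) -
        vR HM none (n' : ZMod (qM I.K0 I.C1 I.P m none))) := by ring
  rw [e4] at e3
  exact e3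

/-- sizes of the sites in the order of the thresholds -/
theorem log_K0 {K0 : ℕ} {C1 P x : ℝ} (hx : x ≤ Real.log K0) (hK : 1 ≤ K0) (i : Si K0 C1 P) :
    x ≤ esN i.1 := by
  have h1 := (mem_Typ.1 i.2).2
  have h2 : Real.log K0 ≤ Real.log i.1 :=
    Real.log_le_log (by exact_mod_cast hK) (by exact_mod_cast h1.2.le)
  exact (hx.trans h2).trans (H883.log_le_esN h1.1.one_lt.le)

/-- **the kernels at one instance of `HLOC`** -/
theorem kin (k : ℕ) (hk : 1 ≤ k) {α γ b gr kap : ℝ} (hα : 0 < α) (hα1 : α ≤ 1 / 48)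
    (hγ : 14 * α ≤ γ) (hb : b ≤ α) (hgr : gr < α) (hkap : 0 < kap) (hkap1 : kap ≤ 1 / 2)
    (hαk : α ≤ kap / 128) :
    ∃ (K00 : ℕ) (P0 : ℝ), ∀ (I : Inst) (κ Dm : ℝ) (q : FP) (Q : Prm), I.k = k → Ok I κ →
      K00 ≤ I.K0 → P0 ≤ I.P → 2 - kap ≤ I.C1 → Q.γ = γ → Q.kap = kap → Q.p = Real.log I.P →
      q.b = b → q.gr = gr → AtF (Typ I.K0 I.C1 I.P) q I.f I.N I.mu Dm →
      ∃ (K : ∀ i : Si I.K0 I.C1 I.P,
          ZMod (qS I.K0 I.C1 I.P i) → ZMod (qS I.K0 I.C1 I.P i) → ℝ)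
        (w w' : ∀ i : Si I.K0 I.C1 I.P, ZMod (qS I.K0 I.C1 I.P i) → ℝ)
        (s : ∀ i : Si I.K0 I.C1 I.P,
          ZMod (qS I.K0 I.C1 I.P i) → ZMod (qS I.K0 I.C1 I.P i) → ℝ)
        (rho ee : Si I.K0 I.C1 I.P → ℝ),
        Tilts I kap K ∧
        (∀ i, ¬ H860.lo I kap i → ∀ n m : ℤ,
          K i (n : ZMod (qS I.K0 I.C1 I.P i)) (m : ZMod (qS I.K0 I.C1 I.P i)) =
            kN I.g (qS I.K0 I.C1 I.P i) (n - m)) ∧
        ∑ i, ee i ≤ 1 / 32 ∧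
        KPair Q univ (fun i => esN (qS I.K0 I.C1 I.P i)) (H860.lo I kap) (lamS I)
          (lam2R (H860.lo I kap) (lamS I) (qS I.K0 I.C1 I.P)) (uw (qS I.K0 I.C1 I.P)) K
          (fun _ => 0) w w' s rho ee ∧
        ∀ (m : ℕ) [NeZero m], 2 ≤ m → (∀ i : Si I.K0 I.C1 I.P, m.Coprime i.1) →
          KOpt I kap Q K rho ee m := by
  obtain ⟨K1, hK1, H1⟩ := kp_R k hk α γ hα hα1 hγ
  obtain ⟨K2, hK2, H2⟩ := prSt_F (c0 := 5) hb hgr (by norm_num)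
  obtain ⟨P1, H3⟩ := hloc_tilts kap α hkap hkap1 hα hαk
  have hγ0 : 0 < γ := by linarith
  refine ⟨max (max ⌈K1⌉₊ ⌈K2⌉₊) (max 32 ⌈Real.exp (Real.log 2 / γ)⌉₊), max 1 P1,
    fun I κ Dm q Q hIk hOk hK00 hP hC1 hQγ hQk hQp hqb hqr hAt => ?_⟩
  subst hQk
  subst hqb
  subst hqr
  have hKa : ⌈K1⌉₊ ≤ I.K0 := (le_max_left _ _).trans ((le_max_left _ _).trans hK00)
  have hKb : ⌈K2⌉₊ ≤ I.K0 := (le_max_right _ _).trans ((le_max_left _ _).trans hK00)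
  have hKc : 32 ≤ I.K0 := (le_max_left _ _).trans ((le_max_right _ _).trans hK00)
  have hKd : ⌈Real.exp (Real.log 2 / γ)⌉₊ ≤ I.K0 :=
    (le_max_right _ _).trans ((le_max_right _ _).trans hK00)
  have hP1 : 1 ≤ I.P := (le_max_left _ _).trans hP
  have hP0 : (0 : ℝ) < I.P := by linarith
  have hP2 : P1 ≤ I.P := (le_max_right _ _).trans hP
  have HS := rs_S I.K0 I.C1 I.P
  have hpr : ∀ i : Si I.K0 I.C1 I.P, i.1.Prime := fun i => (mem_Typ.1 i.2).2.1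
  have hgt : ∀ i : Si I.K0 I.C1 I.P, I.K0 < i.1 := fun i => (mem_Typ.1 i.2).2.2
  have hPr : ∀ i : Si I.K0 I.C1 I.P, PrSt I.f I.mu 1 I.N ((i.1 : ℝ) ^ α) i.1 := fun i =>
    H2 I.f I.mu 1 I.N i.1 ((Nat.le_ceil K2).trans (by exact_mod_cast hKb.trans (hgt i).le))
      (hAt.sup i.1 i.2) (hAt.row i.1 i.2)
  have hl : 0 < Real.log 2 := Real.log_pos (by norm_num)
  have hlog5 : 5 * Real.log 2 ≤ Real.log I.K0 := by
    have h1 : Real.log ((2 : ℝ) ^ 5) = 5 * Real.log 2 := by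
      rw [Real.log_pow]
      norm_num
    rw [← h1]
    refine Real.log_le_log (by norm_num) ?_
    have : (32 : ℝ) ≤ I.K0 := by exact_mod_cast hKc
    linarith
  have hlogγ : Real.log 2 / γ ≤ Real.log I.K0 := by
    have h1 : Real.exp (Real.log 2 / γ) ≤ I.K0 :=
      (Nat.le_ceil _).trans (by exact_mod_cast hKd)
    have h2 := Real.log_le_log (Real.exp_pos _) h1
    rwa [Real.log_exp] at h2
  have hes1 : ∀ i : Si I.K0 I.C1 I.P, esN i.1 - Real.log 2 ≤ Real.log i.1 := fun i =>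
    H883.esN_le_log (hpr i).one_lt
  have hes2 : ∀ i : Si I.K0 I.C1 I.P, Real.log 2 ≤ γ * esN i.1 := fun i => by
    have h1 := log_K0 hlogγ (by omega) i
    rw [div_le_iff₀ hγ0] at h1
    linarith
  have hes3 : ∀ i : Si I.K0 I.C1 I.P, 5 * Real.log 2 ≤ esN i.1 := fun i =>
    log_K0 hlog5 (by omega) i
  have hlo1 : ∀ i : Si I.K0 I.C1 I.P, H860.lo I Q.kap i →
      esN i.1 ≤ (2 - Q.kap) * Q.p + Real.log 2 := by
    intro i hi
    have h1 : i.1 ≤ ⌊I.P ^ (2 - Q.kap)⌋₊ := by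
      have h2 := hi
      simp only [H860.lo, Wst, mem_filter, mem_range, Nat.lt_succ_iff] at h2
      exact h2.1
    have h2 : (i.1 : ℝ) ≤ I.P ^ (2 - Q.kap) :=
      (by exact_mod_cast h1 : (i.1 : ℝ) ≤ (⌊I.P ^ (2 - Q.kap)⌋₊ : ℝ)).trans
        (Nat.floor_le (Real.rpow_nonneg hP0.le _))
    have h3 := Real.log_le_log (by exact_mod_cast (hpr i).pos) h2
    rw [Real.log_rpow hP0, ← hQp] at h3
    have := hes1 i
    linarith
  have hlo2 : ∀ i : Si I.K0 I.C1 I.P, ¬ H860.lo I Q.kap i → (2 - Q.kap) * Q.p < esN i.1 := by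
    intro i hi
    have h1 : ⌊I.P ^ (2 - Q.kap)⌋₊ < i.1 := by
      by_contra hc
      refine hi ?_
      simp only [H860.lo, Wst, mem_filter, mem_range, Nat.lt_succ_iff]
      exact ⟨by omega, hpr i, hgt i⟩
    have h2 : I.P ^ (2 - Q.kap) < (i.1 : ℝ) := (Nat.floor_lt (Real.rpow_nonneg hP0.le _)).1 h1
    have h3 := Real.log_lt_log (Real.rpow_pos_of_pos hP0 _) h2
    rw [Real.log_rpow hP0, ← hQp] at h3
    exact h3.trans_le (H883.log_le_esN (hpr i).one_lt.le)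
  have hlamS : ∀ i : Si I.K0 I.C1 I.P, H860.lo I Q.kap i → ∀ b < qS I.K0 I.C1 I.P i,
      lamS I i (rn (qS I.K0 I.C1 I.P) i b) = cm I.mu 1 I.N (qS I.K0 I.C1 I.P i) b :=
    fun i _ b hb => lamR_rn HS univ I.mu I.N (mem_univ i) hb
  obtain ⟨K, e, e', w, w', s, rho, ee, h1, h2, h3, h4⟩ :=
    H1 I.f I.g I.mu 1 I.N (Si I.K0 I.C1 I.P) (fun i => ZMod (qS I.K0 I.C1 I.P i))
      (qS I.K0 I.C1 I.P) (rn (qS I.K0 I.C1 I.P)) (H860.lo I Q.kap)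
      (fun i => esN (qS I.K0 I.C1 I.P i)) (lamS I) Q HS hQγ (hOk.gdeg.trans hIk) hAt.law
      (fun i => ⟨(Nat.le_ceil K1).trans (by exact_mod_cast hKa.trans (hgt i).le),
        hOk.gpg (hpr i) (hgt i)⟩)
      (fun i _ => ⟨fun t => (H386.kN_fer (hpr i) (hOk.not_dvd_q1 (hpr i) (hgt i)) t).1,
        hPr i⟩) hes1 hes2 hes3 hlamS hlo1 hlo2
  refine ⟨K, w, w', s, rho, ee, ?_, fun i hi n m => ?_, h3, h4,
    fun m _ hm hc => kOpt_of hOk h4 m hm hc⟩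
  · have hsub : Wst I.K0 Q.kap I.P ⊆ Typ I.K0 I.C1 I.P := H860.Wst_sub hP1 hC1
    obtain ⟨bb, t0, t1, t2, t3, t4, t5, t6⟩ :=
      H3 I.P hP2 I.K0 (Si I.K0 I.C1 I.P) (qS I.K0 I.C1 I.P)
        (fun i => ZMod (qS I.K0 I.C1 I.P i)) (fun i => vR HS i)
        (fun n i => (n : ZMod (qS I.K0 I.C1 I.P i))) I.g I.mu 1 I.N K e e'
        (fun p => ⟨p.1, hsub p.2⟩) (fun _ => rfl) (fun i => rs_vR HS i)
        (fun n i => vR_cast HS i n) hAt.law (fun i => h1 _ i.2)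
        (fun i c => (hPr ⟨i.1, hsub i.2⟩).sup c)
    exact ⟨_, _, bb, t0, t1, t2, t3, t4, t5, fun i _ n m => t6 i n m⟩
  · rw [h2 i hi]
    have e1 := vR_cast HS i n
    have e2 := vR_cast HS i m
    have e3 := dvd_sub e1 e2
    refine H954.kN_per' I.g _ _ _ ?_
    have e4 : (vR HS i (n : ZMod (qS I.K0 I.C1 I.P i)) : ℤ) -
        vR HS i (m : ZMod (qS I.K0 I.C1 I.P i)) - (n - m) =
        -(n - vR HS i (n : ZMod (qS I.K0 I.C1 I.P i)) -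
          (m - vR HS i (m : ZMod (qS I.K0 I.C1 I.P i)))) := by ring
    rw [e4]
    exact (dvd_neg).2 e3

/-- **the conclusion of `HLOCat` at one instance** from the tilts and the lower bound -/
theorem hlocat_end {I : Inst} {kap θ ε : ℝ}
    {K : ∀ i : Si I.K0 I.C1 I.P, ZMod (qS I.K0 I.C1 I.P i) → ZMod (qS I.K0 I.C1 I.P i) → ℝ}
    (hT : Tilts I kap K) (hsub : Wst I.K0 kap I.P ⊆ Typ I.K0 I.C1 I.P)
    (hfin : Real.exp (-(ε * I.P)) * (I.m1 * I.m2) ≤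
      ‖∑ B ∈ low {p // p ∈ Wst I.K0 kap I.P} ⌊θ * I.P / Real.log I.P⌋₊,
        ∑ m2 ∈ MM (Tst I.K0) (fun i : {p // p ∈ Wst I.K0 kap I.P} => i.1)
          ⌊Real.exp (θ * I.P)⌋₊,
        FB I.g I.PP I.S1 I.S2 I.G I.G
          (fun i n m => K ⟨i.1, hsub i.2⟩ (n : ZMod i.1) (m : ZMod i.1)) B m2‖) :
    ∃ (e e' : {p // p ∈ Wst I.K0 kap I.P} → ℤ → ℝ) (b b' : {p // p ∈ Wst I.K0 kap I.P} → ℝ)
      (K : {p // p ∈ Wst I.K0 kap I.P} → ℤ → ℤ → ℝ),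
      (∀ i, 0 ≤ b i) ∧ (∀ i, 0 ≤ b' i) ∧
      (∀ i n, e i (n + (i.1 : ℕ)) = e i n) ∧ (∀ i n, e' i (n + (i.1 : ℕ)) = e' i n) ∧
      (∀ i, ∑ x ∈ range i.1, e i (x : ℤ) ^ 2 ≤ (i.1 : ℕ) * b i ^ 2) ∧
      (∀ i, ∑ x ∈ range i.1, e' i (x : ℤ) ^ 2 ≤ (i.1 : ℕ) * b' i ^ 2) ∧
      (∑ i, (b i + b' i) ≤ I.P ^ (1 - kap / 4)) ∧
      (∀ i, ∀ n ∈ cell (q0s I.k I.R I.K0 I.f I.z0) I.w I.z1 I.h0,
        ∀ m ∈ cell (q0s I.k I.R I.K0 I.f I.z0)
          (I.w - ((I.f.eval (I.z0 : ℤ) : ℤ) : ZMod _)) I.z2 I.h0,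
        1 + K i n m =
          (1 + e i n) * (1 + kN (fer I.f (q1s I.k I.R I.K0) I.z0) i.1 (n - m)) *
            (1 + e' i m)) ∧
      Real.exp (-(ε * I.P)) * (cmass I.G (q0s I.k I.R I.K0 I.f I.z0) I.w I.z1 I.h0 *
          cmass I.G (q0s I.k I.R I.K0 I.f I.z0)
            (I.w - ((I.f.eval (I.z0 : ℤ) : ℤ) : ZMod _)) I.z2 I.h0) ≤
        ‖∑ B ∈ low {p // p ∈ Wst I.K0 kap I.P} ⌊θ * I.P / Real.log I.P⌋₊,
          ∑ m2 ∈ MM (Tst I.K0) (fun i : {p // p ∈ Wst I.K0 kap I.P} => i.1)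
            ⌊Real.exp (θ * I.P)⌋₊,
          FB (fer I.f (q1s I.k I.R I.K0) I.z0)
            (PPf I.C1 (fer I.f (q1s I.k I.R I.K0) I.z0) I.P)
            (cell (q0s I.k I.R I.K0 I.f I.z0) I.w I.z1 I.h0)
            (cell (q0s I.k I.R I.K0 I.f I.z0)
              (I.w - ((I.f.eval (I.z0 : ℤ) : ℤ) : ZMod _)) I.z2 I.h0) I.G I.G K B m2‖ := by
  obtain ⟨e, e', b, h0, h1, h2, h3, h4, h5, h6⟩ := hT
  exact ⟨e, e', b, b, _, h0, h0, h1, h2, h3, h4, h5,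
    fun i n _ m _ => h6 i (hsub i.2) n m, hfin⟩

end Vale.Agent.P042.H452
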