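import Vale.Agent.P042.H739.FinalS
import Vale.Agent.P042.H452.Seam4

set_option autoImplicit false

/-!
P042: the local lower bound `LOWat` of the frame, from the seam, the main part and the top part.
-/

namespace Vale.Agent.P042.H452

open Polynomial Finset Vale.Agent.P042.SS Vale.Agent.P042.H74 Vale.Agent.P042.H739

variable {ι : Type*} [Fintype ι] [DecidableEq ι]

/-- the tilted weight -/
noncomputable def tw (S : Finset ℤ) (w : ℤ → ℝ) (e : ι → ℤ → ℝ) (m0 : ℕ) (n : ℤ) : ℝ :=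
  if n ∈ S then w n * Phi e m0 n else 0

theorem Fs_tw (S : Finset ℤ) (N' : ℕ) (hS : S ⊆ Icc (1 : ℤ) N') (w : ℤ → ℝ) (e : ι → ℤ → ℝ)
    (m0 : ℕ) (θ : ℝ) : Fs (tw S w e m0) N' θ = Sf S (fun n => w n * Phi e m0 n) θ := by
  unfold Fs Sf
  rw [← sum_subset hS]
  · refine sum_congr rfl fun n hn => ?_
    unfold tw
    rw [if_pos hn]
  · intro n _ hn
    unfold tw
    rw [if_neg hn]
    simp

theorem tw_sq (prm : ι → ℕ) (hp : ∀ i, (prm i).Prime) (hinj : Function.Injective prm)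
    (e : ι → ℤ → ℝ) (hper : ∀ i n, e i (n + prm i) = e i n) (b : ι → ℝ) (hb : ∀ i, 0 ≤ b i)
    (he : ∀ i, ∑ x ∈ range (prm i), e i (x : ℤ) ^ 2 ≤ prm i * b i ^ 2) (m0 N' : ℕ)
    (hm0 : ∀ D : Finset ι, D.card ≤ m0 → ∏ i ∈ D, prm i ≤ N') (S : Finset ℤ)
    (w : ℤ → ℝ) (A : ℝ) (hw : ∀ n ∈ S, |w n| ≤ A) :
    ∑ n ∈ Icc (1 : ℤ) N', tw S w e m0 n ^ 2 ≤ A ^ 2 * (2 * N' * Real.exp (2 * ∑ i, b i)) := by
  have h1 := H944.phi_l2 prm hp hinj e hper b hb he m0 N' hm0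
  refine le_trans ?_ (mul_le_mul_of_nonneg_left h1 (sq_nonneg A))
  rw [mul_sum]
  refine sum_le_sum fun n _ => ?_
  unfold tw
  split_ifs with h
  · rw [mul_pow]
    refine mul_le_mul ?_ (le_of_eq rfl) (sq_nonneg _) (sq_nonneg _)
    rw [← sq_abs]
    exact pow_le_pow_left₀ (abs_nonneg _) (hw n h) 2
  · rw [zero_pow two_ne_zero]
    positivity

omit [Fintype ι] [DecidableEq ι] in
theorem GamW_eq_GamN (g : ℤ[X]) (PP : Finset ℕ) (hPP : NS g PP) (a : ℤ) (q : ℕ) :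
    GamW g PP a q = ((∏ p ∈ PP, dns g p : ℝ) : ℂ) * GamN g PP a q := by
  have h1 : GamW g PP 0 1 = ((∏ p ∈ PP, dns g p : ℝ) : ℂ) :=
    GamW_zero_one g PP fun p hp => (hPP p hp).1
  have h2 : (∏ p ∈ PP, dns g p) ≠ 0 := prod_ne_zero_iff.2 fun p hp => ((hPP p hp).2).ne'
  have h3 : ((∏ p ∈ PP, dns g p : ℝ) : ℂ) ≠ 0 := by exact_mod_cast h2
  unfold GamN
  rw [h1, mul_div_cancel₀ _ h3]

/-- **`LOWat` from the pieces** -/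
theorem lowat_of (GW : GwTy) {κ0 thQ P : ℝ} {f : ℤ[X]} {N' : ℕ} {G : ℤ → ℝ}
    {T : Finset ℕ} {V : ℕ → ℕ} {q1 z0 : ℕ} {PP : Finset ℕ} {prm : ι → ℕ} {kw : ℕ → ℕ → ℝ}
    {ρ b b' : ι → ℝ} {e e' : ι → ℤ → ℝ} {S1 S2 : Finset ℤ} {A : ℝ} {m0 : ℕ}
    (hT : TinyD f T V q1 (z0 : ℤ)) (hz0 : z0 ≤ q1) (hq1 : (q1 : ℝ) ≤ Real.exp (κ0 * P))
    (hdis : Disjoint T PP)
    (hGW : ∀ (a : ℤ) (q : ℕ), GW (f.comp (C (z0 : ℤ) + C (q1 : ℤ) * X)) P a q =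
      GamW (fer f q1 z0) PP a q)
    (H : SeamH (fer f q1 z0) PP T prm kw ρ b b' e e' S1 S2 G G A N'
      ⌊Real.exp (thQ * P)⌋₊ m0)
    (ht : ∀ n ∈ S1, ∀ m ∈ S2, ((qnul f q1 z0 : ℕ) : ℤ) ∣ (n - m) - f.eval (z0 : ℤ))
    -- windows
    {Hw h0 : ℕ} {z : ℤ} (h8 : 8 * (Hw + h0) ≤ N') (h16 : N' ≤ 16 * Hw) (hh0 : 1 ≤ h0)
    (hh : 2 * h0 ≤ Hw) (hz : 0 ≤ z) (hzN : z + 3 * Hw + 2 * h0 ≤ N')
    (hS1w : ∀ n ∈ S1, z + 3 * Hw + h0 < n ∧ n ≤ z + 3 * Hw + 2 * h0)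
    (hS2w : ∀ n ∈ S2, z < n ∧ n ≤ z + h0)
    -- kernels
    (K : ι → ℤ → ℤ → ℝ)
    (hK : ∀ i, ∀ n ∈ S1, ∀ m ∈ S2,
      1 + K i n m = (1 + e i n) * (1 + kN (fer f q1 z0) (prm i) (n - m)) * (1 + e' i m))
    (M0 Y0 : ℕ) (hM0 : 1 ≤ M0) (hY : ∀ B : Finset ι, B.card ≤ m0 → ∏ i ∈ B, prm i ≤ Y0)
    (hQ : Y0 * M0 * qnul f q1 z0 ≤ ⌊Real.exp (thQ * P)⌋₊) (R δ : ℝ) (hR : 1 ≤ R) (hδ0 : 0 ≤ δ)
    (hkw1 : ∀ m2 : ℕ, 1 ≤ m2 → m2 ≤ ⌊Real.exp (thQ * P)⌋₊ → (∀ p ∈ T, ¬ p ∣ m2) →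
      (∀ i, ¬ prm i ∣ m2) → kapProd kw m2 ≤ 1)
    (hkwδ : ∀ m2 : ℕ, 1 ≤ m2 → m2 ≤ ⌊Real.exp (thQ * P)⌋₊ → (∀ p ∈ T, ¬ p ∣ m2) →
      (∀ i, ¬ prm i ∣ m2) → M0 < m2 → kapProd kw m2 ≤ δ)
    -- main part, top part, numbers
    (mm : ℝ) (hmm : 0 ≤ mm)
    (hmain : ‖∑ B ∈ low ι m0, FB (fer f q1 z0) PP S1 S2 G G K B 1 - (mm : ℂ)‖ ≤ 3 / 4 * mm)
    (htop : ∑ B ∈ low ι m0, ∑ m2 ∈ (MM T prm M0).filter (fun m2 => 1 < m2),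
      ‖FB (fer f q1 z0) PP S1 S2 G G K B m2‖ ≤ 1 / 8 * mm)
    (herr : 4 * (N' : ℝ) ^ 2 * A ^ 2 *
        (R⁻¹ ^ m0 * Real.exp (R * ∑ i, (ρ i + b i + b' i)) +
          δ * Real.exp (∑ i, (ρ i + b i + b' i))) ≤ 1 / 16 * mm)
    (hlow : Real.exp (-(κ0 * P)) * (N' : ℝ) ^ 2 ≤
      (∏ p ∈ PP, dns (fer f q1 z0) p) * ((qnul f q1 z0 : ℝ) * (1 / 16 * mm)))
    (hsq : A ^ 2 * (2 * N' * Real.exp (2 * ∑ i, b i)) ≤ Real.exp (κ0 * P) * N')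
    (hsq' : A ^ 2 * (2 * N' * Real.exp (2 * ∑ i, b' i)) ≤ Real.exp (κ0 * P) * N') :
    LOWat GW κ0 thQ P f N' G := by
  classical
  set g := fer f q1 (z0 : ℤ) with hg
  have hqn1 : 1 ≤ qnul f q1 z0 := qnul_pos z0 hT.q1_pos
  have hT1 : ∀ p ∈ T, ¬ p ∣ 1 := fun p hp h => (hT.prime p hp).one_lt.ne' (Nat.dvd_one.1 h)
  have hi1 : ∀ i, ¬ prm i ∣ 1 := fun i h => (H.prime i).one_lt.ne' (Nat.dvd_one.1 h)
  refine ⟨q1, z0, Hw, h0, z, tw S1 G e m0, tw S2 G e' m0, hT.q1_pos, hq1, hz0, h8, h16, hh0, hh,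
    hz, hzN, ?_, ?_, ?_, ?_, ?_, ?_, ?_⟩
  · intro n hn h0
    apply hn
    unfold tw
    rw [h0]
    simp
  · intro n hn h0
    apply hn
    unfold tw
    rw [h0]
    simp
  · intro n hn
    unfold tw at hn
    split_ifs at hn with h
    · exact hS1w n h
    · exact absurd rfl hn
  · intro n hn
    unfold tw at hn
    split_ifs at hn with h
    · exact hS2w n h
    · exact absurd rfl hn
  · exact (tw_sq prm H.prime H.inj e H.per b H.b0 H.he m0 N' H.hm0 S1 G A H.hw).trans hsq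
  · exact (tw_sq prm H.prime H.inj e' H.per' b' H.b0' H.he' m0 N' H.hm0 S2 G A H.hw').trans hsq'
  -- the lower bound
  have hcross : ∑ q ∈ Icc 1 ⌊Real.exp (thQ * P)⌋₊, ∑ a ∈ (range q).filter (Nat.Coprime q),
      GW (f.comp (C (z0 : ℤ) + C (q1 : ℤ) * X)) P a q *
        (Fs (tw S1 G e m0) N' ((a : ℝ) / q) *
          (starRingEnd ℂ) (Fs (tw S2 G e' m0) N' ((a : ℝ) / q))) =
      ((∏ p ∈ PP, dns g p : ℝ) : ℂ) * crossT g PP S1 S2 G G e e' m0 ⌊Real.exp (thQ * P)⌋₊ := by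
    unfold crossT
    rw [mul_sum]
    refine sum_congr rfl fun q _ => ?_
    rw [mul_sum]
    refine sum_congr rfl fun a _ => ?_
    rw [hGW, GamW_eq_GamN g PP H.hPP, Fs_tw S1 N' H.hS1, Fs_tw S2 N' H.hS2, mul_assoc]
  rw [hcross, norm_mul, Complex.norm_real, Real.norm_eq_abs,
    abs_of_nonneg (prod_nonneg fun p hp => ((H.hPP p hp).2).le)]
  refine hlow.trans (mul_le_mul_of_nonneg_left ?_
    (prod_nonneg fun p hp => ((H.hPP p hp).2).le))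
  have hs := seam hT H hdis ht K hK M0 Y0 hY hQ R δ hR hδ0 hkw1 hkwδ
  -- the main part
  set X := crossT g PP S1 S2 G G e e' m0 ⌊Real.exp (thQ * P)⌋₊ with hX
  have h1mem : 1 ∈ MM T prm M0 := by
    unfold MM
    rw [mem_filter, mem_Icc]
    exact ⟨⟨le_rfl, hM0⟩, hT1, hi1⟩
  have hsplit : ∀ B : Finset ι, ∑ m2 ∈ MM T prm M0, FB g PP S1 S2 G G K B m2 =
      FB g PP S1 S2 G G K B 1 + ∑ m2 ∈ (MM T prm M0).filter (fun m2 => 1 < m2),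
        FB g PP S1 S2 G G K B m2 := by
    intro B
    rw [← sum_filter_add_sum_filter_not (MM T prm M0) (fun m2 => 1 < m2), add_comm]
    congr 1
    have e1 : (MM T prm M0).filter (fun m2 => ¬ 1 < m2) = {1} := by
      ext m2
      simp only [mem_filter, mem_singleton, not_lt]
      constructor
      · rintro ⟨a1, a2⟩
        unfold MM at a1
        rw [mem_filter, mem_Icc] at a1
        omega
      · rintro rfl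
        exact ⟨h1mem, le_rfl⟩
    rw [e1, sum_singleton]
  have hM : ‖∑ B ∈ low ι m0, ∑ m2 ∈ MM T prm M0, FB g PP S1 S2 G G K B m2 - (mm : ℂ)‖ ≤
      7 / 8 * mm := by
    rw [sum_congr rfl fun B _ => hsplit B, sum_add_distrib]
    have e1 : ‖∑ B ∈ low ι m0, ∑ m2 ∈ (MM T prm M0).filter (fun m2 => 1 < m2),
        FB g PP S1 S2 G G K B m2‖ ≤ 1 / 8 * mm := by
      refine ((norm_sum_le _ _).trans (sum_le_sum fun B _ => norm_sum_le _ _)).trans htop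
    have e2 : ∑ B ∈ low ι m0, FB g PP S1 S2 G G K B 1 +
        ∑ B ∈ low ι m0, ∑ m2 ∈ (MM T prm M0).filter (fun m2 => 1 < m2),
          FB g PP S1 S2 G G K B m2 - (mm : ℂ) =
        (∑ B ∈ low ι m0, FB g PP S1 S2 G G K B 1 - (mm : ℂ)) +
        ∑ B ∈ low ι m0, ∑ m2 ∈ (MM T prm M0).filter (fun m2 => 1 < m2),
          FB g PP S1 S2 G G K B m2 := by ring
    rw [e2]
    refine (norm_add_le _ _).trans ?_
    linarith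
  obtain ⟨Mn, hMn⟩ : ∃ x : ℂ, x = ∑ B ∈ low ι m0, ∑ m2 ∈ MM T prm M0,
    FB g PP S1 S2 G G K B m2 := ⟨_, rfl⟩
  rw [← hMn] at hM hs
  have hMlow : 1 / 8 * mm ≤ ‖Mn‖ := by
    have e1 : ‖(mm : ℂ)‖ = mm := by rw [Complex.norm_real, Real.norm_eq_abs, abs_of_nonneg hmm]
    have e2 : ‖(mm : ℂ)‖ ≤ ‖Mn‖ + ‖Mn - (mm : ℂ)‖ := by
      have := norm_sub_norm_le (mm : ℂ) Mn
      rw [norm_sub_rev] at this
      linarith
    linarith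
  have hqr : (0 : ℝ) ≤ (qnul f q1 z0 : ℝ) := Nat.cast_nonneg _
  have h5 : ‖(qnul f q1 z0 : ℂ) * Mn‖ = (qnul f q1 z0 : ℝ) * ‖Mn‖ := by
    rw [norm_mul, Complex.norm_natCast]
  have h6 : ‖(qnul f q1 z0 : ℂ) * Mn‖ ≤ ‖X‖ + ‖X - (qnul f q1 z0 : ℂ) * Mn‖ := by
    have := norm_sub_norm_le ((qnul f q1 z0 : ℂ) * Mn) X
    rw [norm_sub_rev] at this
    linarith
  have h7 : (qnul f q1 z0 : ℝ) * (1 / 8 * mm) ≤ (qnul f q1 z0 : ℝ) * ‖Mn‖ :=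
    mul_le_mul_of_nonneg_left hMlow hqr
  have h8' := mul_le_mul_of_nonneg_left herr hqr
  rw [h5] at h6
  have h9 : (qnul f q1 z0 : ℝ) * (1 / 8 * mm) = (qnul f q1 z0 : ℝ) * (1 / 16 * mm) +
    (qnul f q1 z0 : ℝ) * (1 / 16 * mm) := by ring
  linarith

end Vale.Agent.P042.H452
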