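import Vale.Agent.P042.H954.PrimeK
import Vale.Agent.P042.H359.Push
import Vale.Agent.P042.H452.SeamL

set_option autoImplicit false

/-!
P042: from the product space (kernels and tilts on the residue classes, push-forward laws) to the
hypotheses of `lowat_of`.
-/

namespace Vale.Agent.P042.H452

open Polynomial Finset Vale.Agent.P042.SS Vale.Agent.P042.H74 Vale.Agent.P042.H954

section residues

variable {V : Type*} [Fintype V] {p : ℕ} {v : V → ℕ}

theorem rs_lt (h : Rs V p v) (x : V) : v x < p := by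
  classical
  have h1 := h.sum fun j => if j = v x then (1 : ℝ) else 0
  by_contra hc
  have h2 : ∑ i ∈ range p, (if i = v x then (1 : ℝ) else 0) = 0 := by
    refine sum_eq_zero fun i hi => ?_
    rw [mem_range] at hi
    rw [if_neg (by omega)]
  rw [h2] at h1
  have h3 : (1 : ℝ) ≤ ∑ y, (if v y = v x then (1 : ℝ) else 0) := by
    have := single_le_sum (f := fun y => if v y = v x then (1 : ℝ) else 0)
      (fun y _ => by split_ifs <;> norm_num) (mem_univ x)
    simpa using this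
  linarith

/-- the residue is determined by the congruence class -/
theorem rs_eq (h : Rs V p v) {x y : V} (hxy : (p : ℤ) ∣ (v x : ℤ) - v y) : x = y := by
  apply h.inj
  have h1 := rs_lt h x
  have h2 := rs_lt h y
  have h3 : (v x : ℤ) - v y = 0 := by
    apply Int.eq_zero_of_abs_lt_dvd hxy
    rw [abs_lt]
    constructor <;> omega
  omega

variable {r : ℤ → V}

theorem red_eq (h : Rs V p v) (hr : ∀ n : ℤ, (p : ℤ) ∣ n - v (r n)) {n m : ℤ}
    (hnm : (p : ℤ) ∣ n - m) : r n = r m := by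
  apply rs_eq h
  have h1 := hr n
  have h2 := hr m
  have h3 : (v (r n) : ℤ) - v (r m) = (n - m) - (n - v (r n)) + (m - v (r m)) := by ring
  rw [h3]
  exact dvd_add (dvd_sub hnm h1) h2

theorem red_val (h : Rs V p v) (hr : ∀ n : ℤ, (p : ℤ) ∣ n - v (r n)) (y : V) :
    r (v y : ℤ) = y := by
  apply rs_eq h
  have h1 := hr (v y : ℤ)
  have h2 : (v (r (v y : ℤ)) : ℤ) - v y = -((v y : ℤ) - v (r (v y : ℤ))) := by ring
  rw [h2]
  exact (dvd_neg).2 h1

theorem red_per (h : Rs V p v) (hr : ∀ n : ℤ, (p : ℤ) ∣ n - v (r n)) (n : ℤ) :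
    r (n + p) = r n :=
  red_eq h hr (by simp)

/-- the quadratic mean of a tilt over the residues -/
theorem tilt_sq (h : Rs V p v) (hr : ∀ n : ℤ, (p : ℤ) ∣ n - v (r n)) (hp : 0 < p) (e : V → ℝ)
    (b : ℝ) (hb : nm (fun _ : V => (Fintype.card V : ℝ)⁻¹) e ≤ b) :
    ∑ x ∈ range p, e (r (x : ℤ)) ^ 2 ≤ p * b ^ 2 := by
  have h1 := h.sum fun j => e (r (j : ℤ)) ^ 2
  rw [← h1]
  have h2 : ∀ y : V, e (r (v y : ℤ)) = e y := fun y => by rw [red_val h hr]
  simp only [h2]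
  have hc : (Fintype.card V : ℝ) = p := h.card
  have hp' : (0 : ℝ) < p := by exact_mod_cast hp
  have h3 : ∑ y : V, e y ^ 2 = p * (nm (fun _ : V => (Fintype.card V : ℝ)⁻¹) e) ^ 2 := by
    unfold nm
    rw [Real.sq_sqrt (sum_nonneg fun y _ => by positivity), ← mul_sum, hc, ← mul_assoc,
      mul_inv_cancel₀ hp'.ne', one_mul]
  rw [h3]
  refine mul_le_mul_of_nonneg_left ?_ hp'.le
  exact pow_le_pow_left₀ (Real.sqrt_nonneg _) hb 2

omit [Fintype V] in
/-- the kernel relation -/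
theorem kernel_rel {g : ℤ[X]} (hr : ∀ n : ℤ, (p : ℤ) ∣ n - v (r n)) {K : V → V → ℝ}
    {e e' : V → ℝ}
    (hK : ∀ x y, 1 + K x y = (1 + e x) * (1 + kN g p ((v x : ℤ) - v y)) * (1 + e' y)) (n m : ℤ) :
    1 + K (r n) (r m) = (1 + e (r n)) * (1 + kN g p (n - m)) * (1 + e' (r m)) := by
  rw [hK, kN_per' g p (n - m) ((v (r n) : ℤ) - v (r m))]
  have h1 := hr n
  have h2 := hr m
  have h3 : n - m - ((v (r n) : ℤ) - v (r m)) = (n - v (r n)) - (m - v (r m)) := by ring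
  rw [h3]
  exact dvd_sub h1 h2

end residues

section main

variable {ι : Type*} [Fintype ι] [DecidableEq ι] {V : ι → Type*} [∀ i, Fintype (V i)]
  [∀ i, DecidableEq (V i)]

/-- **the main part** of `lowat_of` from the local comparison of the push-forward laws -/
theorem main_of (g : ℤ[X]) (PP : Finset ℕ) (hPP : NS g PP) (S1 S2 : Finset ℤ) (G : ℤ → ℝ)
    (red : ℤ → ∀ i, V i) (K : ∀ i, V i → V i → ℝ) (m0 : ℕ) (h1 : 0 < ∑ n ∈ S1, G n)
    (h2 : 0 < ∑ n ∈ S2, G n)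
    (hloc : |∑ B ∈ low ι m0, ∑ x, ∑ y, H359.push red S1 G x * H359.push red S2 G y *
      ∏ i ∈ B, K i (x i) (y i) - 1| ≤ 3 / 4) :
    ‖∑ B ∈ low ι m0, FB g PP S1 S2 G G (fun i n m => K i (red n i) (red m i)) B 1 -
      (((∑ n ∈ S1, G n) * ∑ n ∈ S2, G n : ℝ) : ℂ)‖ ≤
      3 / 4 * ((∑ n ∈ S1, G n) * ∑ n ∈ S2, G n) := by
  obtain ⟨mm, hmm⟩ : ∃ x : ℝ, x = (∑ n ∈ S1, G n) * ∑ n ∈ S2, G n := ⟨_, rfl⟩
  have hmm0 : 0 < mm := hmm ▸ mul_pos h1 h2
  rw [← hmm]
  have e1 : ∀ B : Finset ι, FB g PP S1 S2 G G (fun i n m => K i (red n i) (red m i)) B 1 =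
      ((mm * ∑ x, ∑ y, H359.push red S1 G x * H359.push red S2 G y *
        ∏ i ∈ B, K i (x i) (y i) : ℝ) : ℂ) := by
    intro B
    rw [H359.pr_push, ← hmm, mul_div_cancel₀ _ hmm0.ne']
    unfold FB
    push_cast
    refine sum_congr rfl fun n _ => sum_congr rfl fun m _ => ?_
    rw [Ram_one g PP hPP, mul_one]
  rw [sum_congr rfl fun B _ => e1 B, ← Complex.ofReal_sum, ← mul_sum, ← Complex.ofReal_sub,
    Complex.norm_real, Real.norm_eq_abs]
  have e2 : mm * (∑ B ∈ low ι m0, ∑ x, ∑ y, H359.push red S1 G x * H359.push red S2 G y *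
      ∏ i ∈ B, K i (x i) (y i)) - mm = mm * (∑ B ∈ low ι m0, ∑ x, ∑ y,
        H359.push red S1 G x * H359.push red S2 G y * ∏ i ∈ B, K i (x i) (y i) - 1) := by ring
  rw [e2, abs_mul, abs_of_pos hmm0, mul_comm (3 / 4 : ℝ)]
  exact mul_le_mul_of_nonneg_left hloc hmm0.le

theorem low_empty (m0 : ℕ) : (∅ : Finset ι) ∈ low ι m0 := by
  rw [mem_low]
  simp

theorem low_down (m0 : ℕ) : ∀ B ∈ low ι m0, ∀ C ⊆ B, C ∈ low ι m0 := by
  intro B hB C hC
  rw [mem_low] at hB ⊢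
  exact (card_le_card hC).trans hB

end main

end Vale.Agent.P042.H452
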