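import Vale.Agent.P042.H386.KerF
import Vale.Agent.P042.H452.SeamK

set_option autoImplicit false

/-!
P042, power regime: the tilts of the low primes in the integer form of the seam.
-/

namespace Vale.Agent.P042.H452

open Polynomial Finset Vale.Agent.P042.SS Vale.Agent.P042.H74 Vale.Agent.P042.H954
open Vale.Agent.P042.H599 (cm Law klu)
open Vale.Agent.P042.H386 (OutW kLu)

/-- the tilt of one low prime, integer form -/
theorem tilt_one {X : Type} [Fintype X] {p : ℕ} {v : X → ℕ} (hp : 0 < p) (hX : Rs X p v)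
    {r : ℤ → X} (hr : ∀ n : ℤ, (p : ℤ) ∣ n - v (r n)) {g : ℤ[X]} {w : X → ℝ} {K : X → X → ℝ}
    {e e' : X → ℝ} {α b : ℝ} (h : OutW w (fun x y => kN g p ((v x : ℤ) - v y)) K e e' p α)
    (hb : (p : ℝ) ^ (7 * α - 1 / 2) * √(kLu w) ≤ b) :
    (∀ n : ℤ, e (r (n + p)) = e (r n)) ∧ (∀ n : ℤ, e' (r (n + p)) = e' (r n)) ∧
    ∑ x ∈ range p, e (r (x : ℤ)) ^ 2 ≤ p * b ^ 2 ∧
    ∑ x ∈ range p, e' (r (x : ℤ)) ^ 2 ≤ p * b ^ 2 ∧
    ∀ n m : ℤ, 1 + K (r n) (r m) = (1 + e (r n)) * (1 + kN g p (n - m)) * (1 + e' (r m)) := by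
  refine ⟨fun n => by rw [red_per hX hr], fun n => by rw [red_per hX hr],
    tilt_sq hX hr hp e b (h.nme.trans hb), tilt_sq hX hr hp e' b (h.nme'.trans hb),
    fun n m => kernel_rel hr h.tilt n m⟩

/-- the size of the tilts from the sup of the law -/
theorem kLu_le {X : Type} [Fintype X] {w : X → ℝ} {p : ℕ} (hc : (Fintype.card X : ℝ) = p)
    (hp : 1 ≤ p) (h0 : ∀ x, 0 ≤ w x) (h1 : ∑ x, w x = 1) {α : ℝ}
    (hs : ∀ x, p * w x ≤ (p : ℝ) ^ α) : kLu w ≤ α * Real.log p := by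
  have hp0 : (0 : ℝ) < p := by exact_mod_cast hp
  unfold kLu
  rw [hc]
  have h2 : ∀ x ∈ (univ : Finset X), w x * Real.log (p * w x) ≤ w x * (α * Real.log p) := by
    intro x _
    rcases (h0 x).lt_or_eq with h | h
    · refine mul_le_mul_of_nonneg_left ?_ h.le
      rw [← Real.log_rpow hp0]
      exact Real.log_le_log (mul_pos hp0 h) (hs x)
    · rw [← h]
      simp
  refine (sum_le_sum h2).trans ?_
  rw [← sum_mul, h1, one_mul]

theorem tilt_b {X : Type} [Fintype X] {w : X → ℝ} {p : ℕ} (hc : (Fintype.card X : ℝ) = p)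
    (hp : 1 ≤ p) (h0 : ∀ x, 0 ≤ w x) (h1 : ∑ x, w x = 1) {α : ℝ} (hα : 0 ≤ α)
    (hs : ∀ x, p * w x ≤ (p : ℝ) ^ α) :
    (p : ℝ) ^ (7 * α - 1 / 2) * √(kLu w) ≤ (p : ℝ) ^ (8 * α - 1 / 2) := by
  have hp0 : (0 : ℝ) < p := by exact_mod_cast hp
  have hp1 : (1 : ℝ) ≤ p := by exact_mod_cast hp
  have h2 := kLu_le hc hp h0 h1 hs
  have h3 : α * Real.log p ≤ (p : ℝ) ^ α := by
    rw [← Real.log_rpow hp0]
    have := Real.log_le_sub_one_of_pos (Real.rpow_pos_of_pos hp0 α)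
    linarith
  have h4 : √(kLu w) ≤ (p : ℝ) ^ α := by
    rw [Real.sqrt_le_left (Real.rpow_nonneg hp0.le _)]
    have h5 : (1 : ℝ) ≤ (p : ℝ) ^ α := Real.one_le_rpow hp1 hα
    nlinarith [h2.trans h3]
  calc (p : ℝ) ^ (7 * α - 1 / 2) * √(kLu w) ≤ (p : ℝ) ^ (7 * α - 1 / 2) * (p : ℝ) ^ α :=
        mul_le_mul_of_nonneg_left h4 (Real.rpow_nonneg hp0.le _)
    _ = (p : ℝ) ^ (8 * α - 1 / 2) := by
        rw [← Real.rpow_add hp0]
        congr 1
        ring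

end Vale.Agent.P042.H452
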