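import Vale.Agent.P042.H74.Ram3
import Vale.Agent.P042.H954.PrimeK
import Vale.Agent.P042.H365.OneBody
import Vale.Agent.P042.SS.ANFou0

set_option autoImplicit false

/-!
P042: the kernel of a modulus `m` (all prime factors of which are outside the typed primes): it is
real, periodic, of mean zero and bounded by `m`; the kernel class on `Option a`.
-/

namespace Vale.Agent.P042.H452

open Polynomial Finset Vale.Agent.P042.SS Vale.Agent.P042.H74 Vale.Agent.P042.H954

/-- the kernel of the modulus `m` -/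
noncomputable def ramK (g : ℤ[X]) (PP : Finset ℕ) (m : ℕ) (t : ℤ) : ℝ := (Ram g PP m t).re

theorem avC_conj (M : ℕ) (F : ℤ → ℂ) :
    (starRingEnd ℂ) (avC M F) = avC M (fun z => (starRingEnd ℂ) (F z)) := by
  unfold avC
  rw [map_div₀, map_sum, Complex.conj_natCast]

theorem Wq_conj (g : ℤ[X]) (PP : Finset ℕ) (a : ℤ) (q : ℕ) :
    (starRingEnd ℂ) (Wq g PP a q) = Wq g PP (-a) q := by
  unfold Wq
  rw [avC_conj]
  congr 1
  funext z
  rw [map_mul, Complex.conj_ofReal, AN.e_conj]
  congr 2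
  push_cast
  ring

variable {g : ℤ[X]} {PP : Finset ℕ}

theorem GamN_conj (hPP : NS g PP) (a : ℤ) {q : ℕ} (hq : 1 ≤ q) :
    (starRingEnd ℂ) (GamN g PP a q) = GamN g PP (-a) q := by
  rw [GamN_eq g PP hPP a q hq, GamN_eq g PP hPP (-a) q hq, map_div₀, Wq_conj,
    Complex.conj_ofReal]

theorem norm_avC_le (M : ℕ) (F : ℤ → ℂ) (G : ℤ → ℝ) (h : ∀ z : ℤ, ‖F z‖ ≤ G z) :
    ‖avC M F‖ ≤ (avC M (fun z => (G z : ℂ))).re := by
  unfold avC
  rw [norm_div, Complex.norm_natCast]
  have h1 : ((∑ z ∈ range M, ((G (z : ℤ) : ℝ) : ℂ)) / (M : ℂ)).re =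
      (∑ z ∈ range M, G (z : ℤ)) / M := by
    rw [← Complex.ofReal_natCast, ← Complex.ofReal_sum, ← Complex.ofReal_div, Complex.ofReal_re]
  rw [h1]
  refine div_le_div_of_nonneg_right ?_ (Nat.cast_nonneg _)
  exact (norm_sum_le _ _).trans (sum_le_sum fun z _ => h z)

theorem norm_GamN_le (hPP : NS g PP) (a : ℤ) {q : ℕ} (hq : 1 ≤ q) : ‖GamN g PP a q‖ ≤ 1 := by
  classical
  rw [GamN_eq g PP hPP a q hq]
  set U := PP.filter (fun p => p ∣ q) with hU
  have hUP : ∀ p ∈ U, p.Prime ∧ 0 < dns g p := fun p hp => hPP p (mem_filter.1 hp).1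
  have hpos : 0 < ∏ p ∈ U, dns g p := prod_pos fun p hp => (hUP p hp).2
  rw [norm_div, Complex.norm_real, Real.norm_eq_abs, abs_of_pos hpos, div_le_one hpos]
  unfold Wq
  have h1 := norm_avC_le q (fun z => (om g U z : ℂ) * e (a * ((g.eval z : ℤ) : ℝ) / q))
    (fun z => om g U z) (fun z => by
      rw [norm_mul, norm_e, mul_one, Complex.norm_real, Real.norm_eq_abs, abs_of_nonneg]
      unfold om
      exact prod_nonneg fun p _ => by split_ifs <;> norm_num)
  refine h1.trans (le_of_eq ?_)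
  have hdvd : (∏ p ∈ U, p) ∣ q :=
    Finset.prod_primes_dvd q (fun p hp => (hUP p hp).1.prime) fun p hp => (mem_filter.1 hp).2
  obtain ⟨w, hw⟩ := hdvd
  have hw1 : 1 ≤ w := by
    rcases Nat.eq_zero_or_pos w with h | h
    · rw [h, mul_zero] at hw
      omega
    · exact h
  have h2 : avC q (fun z => (om g U z : ℂ)) = ((∏ p ∈ U, dns g p : ℝ) : ℂ) := by
    rw [← avC_om g U fun p hp => (hUP p hp).1]
    conv_lhs => rw [hw]
    exact avC_period hw1 (om_per g U _ fun p hp => dvd_prod_of_mem _ hp)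
  rw [h2, Complex.ofReal_re]

/-- the kernel is real -/
theorem Ram_conj (hPP : NS g PP) {m : ℕ} (hm : 1 ≤ m) (t : ℤ) :
    (starRingEnd ℂ) (Ram g PP m t) = Ram g PP m t := by
  have hm0 : (m : ℝ) ≠ 0 := by positivity
  have hM := multFam_GamN g PP hPP
  unfold Ram cR
  rw [map_sum]
  have h1 : ∀ a : ℕ, (starRingEnd ℂ) (GamN g PP a m * e (-((t : ℝ) * ((a : ℝ) / m)))) =
      GamN g PP ((m : ℤ) - a) m * e (-((t : ℝ) * ((((m : ℤ) - a : ℤ) : ℝ) / m))) := by
    intro a
    rw [map_mul, GamN_conj hPP a hm, AN.e_conj]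
    have h2 := hM.per m (-(a : ℤ)) 1 hm
    simp only [one_mul] at h2
    have h3 : (m : ℤ) - a = -(a : ℤ) + m := by ring
    rw [h3, h2]
    congr 1
    have h4 : -((t : ℝ) * (((-(a : ℤ) + m : ℤ) : ℝ) / m)) =
        ((-t : ℤ) : ℝ) + - -((t : ℝ) * ((a : ℝ) / m)) := by
      push_cast
      field_simp
      ring
    rw [h4, e_int_add]
  rcases Nat.lt_or_ge 1 m with hm1 | hm1
  · refine sum_nbij' (fun a => m - a) (fun a => m - a) ?_ ?_ ?_ ?_ ?_
    · intro a ha
      rw [mem_filter, mem_range] at ha ⊢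
      have ha0 : 0 < a := by
        rcases Nat.eq_zero_or_pos a with h | h
        · rw [h, Nat.coprime_zero_right] at ha
          omega
        · exact h
      refine ⟨by omega, ?_⟩
      exact (Nat.coprime_self_sub_right ha.1.le).2 ha.2
    · intro a ha
      rw [mem_filter, mem_range] at ha ⊢
      have ha0 : 0 < a := by
        rcases Nat.eq_zero_or_pos a with h | h
        · rw [h, Nat.coprime_zero_right] at ha
          omega
        · exact h
      refine ⟨by omega, ?_⟩
      exact (Nat.coprime_self_sub_right ha.1.le).2 ha.2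
    · intro a ha
      rw [mem_filter, mem_range] at ha
      omega
    · intro a ha
      rw [mem_filter, mem_range] at ha
      omega
    · intro a ha
      rw [mem_filter, mem_range] at ha
      rw [h1 a]
      have h5 : (((m - a : ℕ) : ℕ) : ℤ) = (m : ℤ) - a := by
        rw [Nat.cast_sub ha.1.le]
      rw [h5]
      congr 3
      rw [← Int.cast_natCast (R := ℝ) (m - a), h5]
  · have hm' : m = 1 := by omega
    subst hm'
    have h6 : (range 1).filter (Nat.Coprime 1) = {0} := by decide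
    rw [h6, sum_singleton, sum_singleton, h1]
    have h7 := hM.per 1 0 1 le_rfl
    simp only [one_mul, Nat.cast_one, zero_add] at h7
    simp only [Nat.cast_zero, Nat.cast_one, sub_zero]
    rw [h7]
    congr 1
    have h8 : -((t : ℝ) * (((1 : ℤ) : ℝ) / 1)) = ((-t : ℤ) : ℝ) + 0 := by
      push_cast
      ring
    rw [h8, e_int_add]
    congr 1
    ring

theorem Ram_ramK (hPP : NS g PP) {m : ℕ} (hm : 1 ≤ m) (t : ℤ) :
    Ram g PP m t = (ramK g PP m t : ℂ) := by
  have h := Ram_conj hPP hm t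
  rw [Complex.conj_eq_iff_re] at h
  unfold ramK
  exact h.symm

theorem abs_ramK_le (hPP : NS g PP) {m : ℕ} (hm : 1 ≤ m) (t : ℤ) : |ramK g PP m t| ≤ m := by
  unfold ramK
  refine (Complex.abs_re_le_norm _).trans ?_
  unfold Ram cR
  refine (norm_sum_le _ _).trans ?_
  have h1 : ∀ a ∈ (range m).filter (Nat.Coprime m),
      ‖GamN g PP a m * e (-((t : ℝ) * ((a : ℝ) / m)))‖ ≤ 1 := by
    intro a _
    rw [norm_mul, norm_e, mul_one]
    exact norm_GamN_le hPP a hm
  refine (sum_le_sum h1).trans ?_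
  rw [sum_const, nsmul_eq_mul, mul_one]
  have h2 := card_filter_le (range m) (Nat.Coprime m)
  rw [card_range] at h2
  exact_mod_cast h2

theorem Ram_shift {m : ℕ} (hm : 1 ≤ m) {t t' : ℤ} (h : (m : ℤ) ∣ t - t') :
    Ram g PP m t = Ram g PP m t' := by
  obtain ⟨c, hc⟩ := h
  have hm0 : (m : ℝ) ≠ 0 := by positivity
  have ht : t = t' + m * c := by linarith
  unfold Ram cR
  refine sum_congr rfl fun a _ => ?_
  congr 1
  have h4 : -((t : ℝ) * ((a : ℝ) / m)) = ((-(c * a) : ℤ) : ℝ) + -((t' : ℝ) * ((a : ℝ) / m)) := by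
    rw [ht]
    push_cast
    field_simp
    ring
  rw [h4, e_int_add]

theorem ramK_shift {m : ℕ} (hm : 1 ≤ m) {t t' : ℤ} (h : (m : ℤ) ∣ t - t') :
    ramK g PP m t = ramK g PP m t' := by
  unfold ramK
  rw [Ram_shift hm h]

/-- mean zero in both variables -/
theorem sum_Ram {m : ℕ} (hm : 2 ≤ m) (t : ℤ) :
    ∑ x ∈ range m, Ram g PP m (t + x) = 0 ∧ ∑ x ∈ range m, Ram g PP m (t - x) = 0 := by
  have hm1 : 1 ≤ m := by omega
  have hm0 : (m : ℝ) ≠ 0 := by positivity
  have key : ∀ a ∈ (range m).filter (Nat.Coprime m), ∀ s : ℤ, (s = 1 ∨ s = -1) →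
      ∑ x ∈ range m, e (-(((t + s * x : ℤ) : ℝ) * ((a : ℝ) / m))) = 0 := by
    intro a ha s hs
    rw [mem_filter, mem_range] at ha
    have h1 : ∀ x ∈ range m, e (-(((t + s * x : ℤ) : ℝ) * ((a : ℝ) / m))) =
        e (-((t : ℝ) * ((a : ℝ) / m))) * e (((-(s * a) : ℤ) : ℝ) * ((x : ℝ) / m)) := by
      intro x _
      rw [← e_add]
      congr 1
      push_cast
      field_simp
      ring
    rw [sum_congr rfl h1, ← mul_sum, echar_orth m hm1, if_neg, mul_zero]
    intro hd
    have h2 : (m : ℤ) ∣ (a : ℤ) := by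
      rcases hs with h | h
      · rw [h, one_mul, dvd_neg] at hd
        exact hd
      · rw [h] at hd
        have h3 : -((-1 : ℤ) * (a : ℤ)) = a := by ring
        rwa [h3] at hd
    have h3 : m ∣ a := by exact_mod_cast h2
    have h4 := Nat.eq_one_of_dvd_coprimes ha.2 dvd_rfl h3
    omega
  constructor
  · unfold Ram cR
    rw [sum_comm]
    refine sum_eq_zero fun a ha => ?_
    rw [← mul_sum]
    have := key a ha 1 (Or.inl rfl)
    simp only [one_mul] at this
    rw [this, mul_zero]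
  · unfold Ram cR
    rw [sum_comm]
    refine sum_eq_zero fun a ha => ?_
    rw [← mul_sum]
    have := key a ha (-1) (Or.inr rfl)
    have h5 : ∀ x : ℕ, t + -1 * (x : ℤ) = t - x := fun x => by ring
    simp only [h5] at this
    rw [this, mul_zero]

theorem sum_ramK {m : ℕ} (hm : 2 ≤ m) (t : ℤ) :
    ∑ x ∈ range m, ramK g PP m (t + x) = 0 ∧ ∑ x ∈ range m, ramK g PP m (t - x) = 0 := by
  obtain ⟨h1, h2⟩ := sum_Ram (g := g) (PP := PP) hm t
  unfold ramK
  rw [← Complex.re_sum, ← Complex.re_sum, h1, h2, Complex.zero_re]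
  exact ⟨rfl, rfl⟩

/-! ### the site of the modulus -/

section site

variable {X : Type*} [Fintype X] {m : ℕ} {v : X → ℕ}

/-- the kernel on the classes mod `m` -/
noncomputable def ooK (g : ℤ[X]) (PP : Finset ℕ) (m : ℕ) (v : X → ℕ) (x y : X) : ℝ :=
  ramK g PP m ((v x : ℤ) - v y)

theorem ooK_left (hm : 2 ≤ m) (hX : Rs X m v) (y : X) :
    ∑ x, ooK g PP m v x y = 0 := by
  unfold ooK
  have h1 := hX.sum fun i => ramK g PP m ((i : ℤ) - v y)
  rw [h1]
  have h2 := (sum_ramK (g := g) (PP := PP) hm (-(v y : ℤ))).1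
  rw [← h2]
  exact sum_congr rfl fun x _ => by rw [neg_add_eq_sub]

theorem ooK_right (hm : 2 ≤ m) (hX : Rs X m v) (x : X) :
    ∑ y, ooK g PP m v x y = 0 := by
  unfold ooK
  have h1 := hX.sum fun i => ramK g PP m ((v x : ℤ) - i)
  rw [h1]
  exact (sum_ramK (g := g) (PP := PP) hm (v x : ℤ)).2

/-- operator bound with respect to the uniform law -/
theorem ooK_op (hPP : NS g PP) (hm : 1 ≤ m) (hX : Rs X m v) (f : X → ℝ) :
    ∑ a, (Fintype.card X : ℝ)⁻¹ *
      (∑ b, (Fintype.card X : ℝ)⁻¹ * (ooK g PP m v a b * f b)) ^ 2 ≤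
      (m : ℝ) ^ 2 * ∑ b, (Fintype.card X : ℝ)⁻¹ * f b ^ 2 := by
  have hm0 : (0 : ℝ) < m := by exact_mod_cast hm
  have hc : (Fintype.card X : ℝ) = m := hX.card
  have hmi : (0 : ℝ) ≤ (m : ℝ)⁻¹ := inv_nonneg.2 hm0.le
  rw [hc]
  have h1 : ∀ a : X, (∑ b, (m : ℝ)⁻¹ * (ooK g PP m v a b * f b)) ^ 2 ≤
      (m : ℝ) ^ 2 * ∑ b, (m : ℝ)⁻¹ * f b ^ 2 := by
    intro a
    have h2 := sum_mul_sq_le_sq_mul_sq univ (fun b : X => ooK g PP m v a b) f
    have h3 : ∑ b : X, ooK g PP m v a b ^ 2 ≤ (m : ℝ) * (m : ℝ) ^ 2 := by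
      have h4 : ∀ b ∈ (univ : Finset X), ooK g PP m v a b ^ 2 ≤ (m : ℝ) ^ 2 := by
        intro b _
        have := abs_ramK_le (g := g) hPP hm ((v a : ℤ) - v b)
        unfold ooK
        rw [← sq_abs]
        exact pow_le_pow_left₀ (abs_nonneg _) this 2
      refine (sum_le_sum h4).trans ?_
      rw [sum_const, nsmul_eq_mul, card_univ, hc]
    have h5 : (∑ b, (m : ℝ)⁻¹ * (ooK g PP m v a b * f b)) ^ 2 =
        (m : ℝ)⁻¹ ^ 2 * (∑ b, ooK g PP m v a b * f b) ^ 2 := by
      rw [← mul_sum, mul_pow]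
    rw [h5, ← mul_sum]
    have h6 : (∑ b, ooK g PP m v a b * f b) ^ 2 ≤ (m * (m : ℝ) ^ 2) * ∑ b, f b ^ 2 :=
      h2.trans (mul_le_mul_of_nonneg_right h3 (sum_nonneg fun b _ => sq_nonneg _))
    refine (mul_le_mul_of_nonneg_left h6 (by positivity)).trans (le_of_eq ?_)
    field_simp
  refine (sum_le_sum fun a _ => mul_le_mul_of_nonneg_left (h1 a) hmi).trans ?_
  rw [← mul_sum, sum_const, nsmul_eq_mul, card_univ, hc, ← mul_assoc, inv_mul_cancel₀ hm0.ne',
    one_mul]

/-- the kernel class at the site of the modulus -/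
theorem ooK_OB (hPP : NS g PP) (hm : 2 ≤ m) (hX : Rs X m v) :
    H365.OB (fun (_ : Unit) (_ : X) => (Fintype.card X : ℝ)⁻¹) (fun _ => ooK g PP m v)
      (fun _ => 0) (fun _ _ => 0) (fun _ _ => 0) (fun _ => ooK g PP m v) (fun _ => (m : ℝ))
      (fun _ => 0) where
  rho0 _ := Nat.cast_nonneg _
  e0 _ := le_rfl
  split _ a b := by ring
  sl _ b := by
    rw [← mul_sum, ooK_left hm hX, mul_zero]
  sr _ a := by
    rw [← mul_sum, ooK_right hm hX, mul_zero]
  ul _ := by simp
  ur _ := by simp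
  cn _ := by simp
  un _ := by simp
  un' _ := by simp
  sn _ f := ooK_op hPP (by omega) hX f

end site

section opt

universe u1 u2

variable {α : Type u1} {V : Option α → Type u2} [∀ i, Fintype (V i)] {lam : ∀ i, V i → ℝ}
  {K : ∀ i, V i → V i → ℝ} {c : Option α → ℝ} {u u' : ∀ i, V i → ℝ} {s : ∀ i, V i → V i → ℝ}
  {rho ee : Option α → ℝ}

/-- the kernel class on `Option α` from the class on `α` and the class at `none` -/
theorem OB_opt
    (h : H365.OB (fun i : α => lam (some i)) (fun i => K (some i)) (fun i => c (some i))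
      (fun i => u (some i)) (fun i => u' (some i)) (fun i => s (some i)) (fun i => rho (some i))
      (fun i => ee (some i)))
    (h0 : H365.OB (fun _ : Unit => lam none) (fun _ => K none) (fun _ => c none)
      (fun _ => u none) (fun _ => u' none) (fun _ => s none) (fun _ => rho none)
      (fun _ => ee none)) :
    H365.OB lam K c u u' s rho ee where
  rho0 i := by cases i with | none => exact h0.rho0 () | some i => exact h.rho0 i
  e0 i := by cases i with | none => exact h0.e0 () | some i => exact h.e0 i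
  split i := by cases i with | none => exact h0.split () | some i => exact h.split i
  sl i := by cases i with | none => exact h0.sl () | some i => exact h.sl i
  sr i := by cases i with | none => exact h0.sr () | some i => exact h.sr i
  ul i := by cases i with | none => exact h0.ul () | some i => exact h.ul i
  ur i := by cases i with | none => exact h0.ur () | some i => exact h.ur i
  cn i := by cases i with | none => exact h0.cn () | some i => exact h.cn i
  un i := by cases i with | none => exact h0.un () | some i => exact h.un i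
  un' i := by cases i with | none => exact h0.un' () | some i => exact h.un' i
  sn i := by cases i with | none => exact h0.sn () | some i => exact h.sn i

end opt

end Vale.Agent.P042.H452
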